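import Vale.Agent.P287T.Cl.Lat1

/-!
# The Mukai lattice: unimodularity and rank
-/

set_option linter.unusedSectionVars false

noncomputable section

namespace Vale.Agent.P287T.Cl

open Set Function Matrix Module P291Z P269 P269.Coh P287Q P287Q.Cub P287Q.Zc P287T.Cy
  P287T.Rr P287T.Top

/-- Independence over `ℤ` implies independence over `ℂ`, if this holds for one basis. -/
theorem l2_ind {M W κ : Type} [AddCommGroup M] [AddCommGroup W] [Module ℂ W]
    (b : Basis κ ℤ M) (j : M →ₗ[ℤ] W) (hb : LinearIndependent ℂ fun k => j (b k)) {ι : Type}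
    {v : ι → M} (hv : LinearIndependent ℤ v) : LinearIndependent ℂ fun i => j (v i) := by
  let φ : TensorProduct ℤ ℂ M →ₗ[ℂ] W := j.liftBaseChange ℂ
  have h1 : Injective φ := by
    have := (Algebra.TensorProduct.basis ℂ b).injective_constr_of_linearIndependent (R₂ := ℂ) hb
    rwa [show (Algebra.TensorProduct.basis ℂ b).constr ℂ (fun k => j (b k)) = φ from
      (Algebra.TensorProduct.basis ℂ b).ext fun k => by
        rw [Basis.constr_basis]; simp [φ]] at this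
  have h2 := (Module.Flat.linearIndependent_one_tmul (S := ℂ) hv).map' φ
    (LinearMap.ker_eq_bot.2 h1)
  rwa [show (φ ∘ fun i => (1 : ℂ) ⊗ₜ[ℤ] v i) = fun i => j (v i) from
    funext fun i => by simp [φ]] at h2

variable {F : S6}

variable (F) in
/-- The degree of a class. -/
def l2s : H (XF F) →ₗ[ℂ] ℂ := JF F ∘ₗ LinearMap.mulRight ℂ (hyp F ^ 2)

theorem l2s_apply (x : H (XF F)) : l2s F x = JF F (x * hyp F ^ 2) := rfl

variable (F) in
/-- The parametrisation of the Mukai lattice by `ℤ × H⁴(ℤ)`. -/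
def l2ψ : (ℂ × H (XF F)) →ₗ[ℂ] MV F where
  toFun z := (![2 / 3 * l2s F z.2 - z.1, z.1 - l2s F z.2 / 3, -(l2s F z.2 / 3)], pr F z.2)
  map_add' a b := Prod.ext (by
    funext k
    fin_cases k <;> simp <;> ring) (pr_add _ _)
  map_smul' c a := Prod.ext (by
    funext k
    fin_cases k <;> simp <;> ring) (by
      simp only [pr, Prod.smul_snd, smul_mul_assoc, map_smul, smul_eq_mul, RingHom.id_apply,
        smul_sub, smul_smul, mul_div_assoc])

theorem l2ψ_apply (t : ℂ) (x : H (XF F)) : l2ψ F (t, x) =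
    (![2 / 3 * l2s F x - t, t - l2s F x / 3, -(l2s F x / 3)], pr F x) := rfl

theorem l2_pr (x : H (XF F)) : pr F x = x - (l2s F x / 3) • hyp F ^ 2 := rfl

theorem l2ψ_inj : Injective (l2ψ F) := by
  refine (injective_iff_map_eq_zero _).2 ?_
  rintro ⟨t, x⟩ h
  have h2 : -(l2s F x / 3) = 0 := congrFun (congrArg Prod.fst h) 2
  have h1 : t - l2s F x / 3 = 0 := congrFun (congrArg Prod.fst h) 1
  have h3 : pr F x = 0 := congrArg Prod.snd h
  rw [neg_eq_zero] at h2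
  rw [l2_pr, h2, zero_smul, sub_zero] at h3
  rw [h2, sub_zero] at h1
  exact Prod.ext h1 h3

variable (c : Cu F)
include c

theorem l2_η : hyp F ^ 2 ∈ Lk (XF F) 4 := c.per.cubH.η.2

theorem l2_comm {a : H (XF F)} (ha : H.IsDeg 4 a) (b : H (XF F)) :
    JF F (b * a) = JF F (a * b) := J_comm (Y := c.per.ps) (k := 2) ha b

theorem l2s_η : l2s F (hyp F ^ 2) = 3 := by
  rw [l2s_apply, ← pow_add]
  exact c.per.cubH.deg

theorem l2_uni : Uni ((LinearMap.mul ℂ (H (XF F))).compr₂ (JF F)) (H.deg _ 4) (Lk (XF F) 4) := by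
  have := c.per.cubH.pz.mid (by rw [c.per.cubH.n]; decide)
  rwa [c.per.cubH.n] at this

theorem l2_lat : IsLat (XF F) 4 := c.per.cubH.pz.lat 4

theorem l2s_pr (x : H (XF F)) : l2s F (pr F x) = 0 := by
  rw [l2_pr, map_sub, map_smul, l2s_η c, smul_eq_mul]
  ring

theorem l2_prim {x : H (XF F)} (hx : H.IsDeg 4 x) : hyp F * x = 0 ↔ l2s F x = 0 := prim_iff c hx

theorem l2_pr_deg {x : H (XF F)} (hx : H.IsDeg 4 x) : H.IsDeg 4 (pr F x) :=
  (H.deg _ 4).sub_mem hx ((H.deg _ 4).smul_mem _ (l2_η c).2)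

theorem l2ψ_mem (t : ℂ) {x : H (XF F)} (hx : H.IsDeg 4 x) : l2ψ F (t, x) ∈ VV F :=
  ⟨by
    change 2 / 3 * l2s F x - t + (t - l2s F x / 3) + -(l2s F x / 3) = 0
    ring, l2_pr_deg c hx, (l2_prim c (l2_pr_deg c hx)).2 (l2s_pr c x)⟩

theorem l2ψ_onto {v : MV F} (hv : v ∈ VV F) : ∃ t x, H.IsDeg 4 x ∧ l2ψ F (t, x) = v := by
  obtain ⟨h0, h1, h2⟩ := hv
  have h3 : l2s F (v.2 - v.1 2 • hyp F ^ 2) = -3 * v.1 2 := by
    rw [map_sub, (l2_prim c h1).1 h2, map_smul, l2s_η c, smul_eq_mul]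
    ring
  refine ⟨v.1 1 - v.1 2, v.2 - v.1 2 • hyp F ^ 2,
    (H.deg _ 4).sub_mem h1 ((H.deg _ 4).smul_mem _ (l2_η c).2), Prod.ext ?_ ?_⟩
  · rw [l2ψ_apply, h3]
    funext k
    fin_cases k
    · change _ = v.1 0
      simp only [Fin.zero_eta, cons_val_zero]
      linear_combination -h0
    · change _ = v.1 1
      simp only [Fin.mk_one, cons_val_one, cons_val_zero]
      ring
    · change -(_ / 3) = v.1 2
      ring
  · change pr F _ = _
    rw [l2_pr, h3, show -3 * v.1 2 / 3 = -v.1 2 by ring, neg_smul, sub_neg_eq_add,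
      sub_add_cancel]

theorem l2_int {x : H (XF F)} (hx : x ∈ Lk (XF F) 4) : ∃ s : ℤ, l2s F x = s :=
  mem_ZZ.1 ((l2_uni c).int x hx _ (l2_η c))

theorem l2_LM {v : MV F} : v ∈ LM F ↔ ∃ t : ℤ, ∃ x ∈ Lk (XF F) 4, l2ψ F (t, x) = v := by
  have key : ∀ (u : Fin 3 → ℤ) (x : H (XF F)), ((u 0 + u 1 + u 2 : ℤ) : ℂ) = l2s F x →
      mv F (eis u, pr F x) = l2ψ F (((u 1 - u 2 : ℤ) : ℂ), x - u 2 • hyp F ^ 2) := by
    intro u x h
    have h3 : l2s F (x - u 2 • hyp F ^ 2) = l2s F x - 3 * u 2 := by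
      rw [map_sub, map_zsmul, l2s_η c, zsmul_eq_mul, mul_comm]
    push_cast at h
    refine Prod.ext ?_ ?_
    · rw [l2ψ_apply, h3, ← h]
      funext k
      refine (al_eis u k).trans ?_
      fin_cases k <;> simp <;> ring
    · change pr F x = pr F _
      rw [l2_pr, l2_pr, h3, ← Int.cast_smul_eq_zsmul ℂ, sub_sub, ← add_smul]
      congr 2
      ring
  constructor
  · rintro ⟨_, ⟨x, hx, u, hu, rfl⟩, rfl⟩
    exact ⟨_, _, sub_mem hx (Submodule.smul_mem _ _ (l2_η c)), (key u x hu).symm⟩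
  · rintro ⟨t, x, hx, rfl⟩
    obtain ⟨s, hs⟩ := l2_int c hx
    have h : (((![s - t, t, 0] : Fin 3 → ℤ) 0 + (![s - t, t, 0] : Fin 3 → ℤ) 1 +
        (![s - t, t, 0] : Fin 3 → ℤ) 2 : ℤ) : ℂ) = l2s F x := by simp [hs]
    exact ⟨_, ⟨x, hx, _, h, rfl⟩, (key _ x h).trans (by simp)⟩

theorem l2_mu (t t' : ℂ) {x : H (XF F)} (x' : H (XF F)) :
    mu F (l2ψ F (t, x)) (l2ψ F (t', x')) =
      (l2s F x - t) * (l2s F x' - t') + t * t' - JF F (x * x') := by
  have h1 : JF F (hyp F ^ 2 * x') = l2s F x' := (l2_comm c (l2_η c).2 x').symm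
  have h2 : JF F (hyp F ^ 2 * hyp F ^ 2) = 3 := l2s_η c
  rw [mu_apply, l2ψ_apply, l2ψ_apply]
  simp only [l2_pr, sub_mul, mul_sub, smul_mul_assoc, mul_smul_comm, map_sub, map_smul, h1, h2,
    ← l2s_apply, smul_eq_mul, dotProduct, Fin.sum_univ_three, cons_val_zero, cons_val_one,
    cons_val_two, head_cons, tail_cons]
  ring

theorem l2_mu0 (t : ℂ) (x x' : H (XF F)) : mu F (l2ψ F (t, x)) (l2ψ F (0, x')) =
    JF F (((l2s F x - t) • hyp F ^ 2 - x) * x') := by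
  rw [l2_mu c, sub_mul (_ • _), smul_mul_assoc, map_sub, map_smul, ← l2_comm c (l2_η c).2 x',
    ← l2s_apply, smul_eq_mul]
  ring

theorem l2_mu1 (t : ℂ) (x : H (XF F)) : mu F (l2ψ F (t, x)) (l2ψ F (1, 0)) = 2 * t - l2s F x := by
  rw [l2_mu c, map_zero, mul_zero, map_zero]
  ring

theorem muk_nondeg : ∀ x ∈ VV F, (∀ y ∈ VV F, mu F x y = 0) → x = 0 := by
  intro v hv h
  obtain ⟨t, x, hx, rfl⟩ := l2ψ_onto c hv
  have h1 := (l2_mu1 c t x).symm.trans (h _ (l2ψ_mem c 1 (zero_mem (H.deg _ 4))))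
  have h2 := (l2_uni c).nondeg ((l2s F x - t) • hyp F ^ 2 - x)
    ((H.deg _ 4).sub_mem ((H.deg _ 4).smul_mem _ (l2_η c).2) hx)
    fun y hy => (l2_mu0 c t x y).symm.trans (h _ (l2ψ_mem c 0 hy))
  have h3 := congrArg (l2s F) h2
  rw [map_sub, map_smul, l2s_η c, map_zero, smul_eq_mul] at h3
  have h4 : t = 0 := by linear_combination 2 * h1 + h3
  have h5 : l2s F x = 0 := by linear_combination 2 * h4 - h1
  rw [h4, h5, sub_zero, zero_smul, zero_sub, neg_eq_zero] at h2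
  rw [h4, h2]
  exact map_zero _

theorem l2_mem {x : H (XF F)} (hx : H.IsDeg 4 x)
    (h : ∀ y ∈ Lk (XF F) 4, ∃ n : ℤ, JF F (x * y) = n) : x ∈ Lk (XF F) 4 := by
  obtain ⟨z, hz, e⟩ := (l2_uni c).rep (((LinearMap.mul ℂ (H (XF F))).compr₂ (JF F)) x)
    fun y hy => mem_ZZ.2 (h y hy)
  have := (l2_uni c).nondeg (z - x) ((H.deg _ 4).sub_mem hz.2 hx) fun y hy => by
    rw [map_sub, LinearMap.sub_apply, e y hy, sub_self]
  exact sub_eq_zero.1 this ▸ hz

theorem muk_uni : ∀ x ∈ VV F, (∀ y ∈ LM F, ∃ n : ℤ, mu F x y = n) → x ∈ LM F := by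
  intro v hv h
  obtain ⟨t, x, hx, rfl⟩ := l2ψ_onto c hv
  obtain ⟨a, ha⟩ := h (l2ψ F (1, 0)) ((l2_LM c).2 ⟨1, 0, zero_mem _, by rw [Int.cast_one]⟩)
  rw [l2_mu1 c] at ha
  have h2 := l2_mem c (x := (l2s F x - t) • hyp F ^ 2 - x)
    ((H.deg _ 4).sub_mem ((H.deg _ 4).smul_mem _ (l2_η c).2) hx) fun y hy => by
      rw [← l2_mu0 c]
      exact h _ ((l2_LM c).2 ⟨0, y, hy, by rw [Int.cast_zero]⟩)
  obtain ⟨b, hb⟩ := l2_int c h2
  rw [map_sub, map_smul, l2s_η c, smul_eq_mul] at hb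
  have h4 : t = (2 * a + b : ℤ) := by push_cast; linear_combination 2 * ha + hb
  have h5 : l2s F x - t = (a + b : ℤ) := by push_cast; linear_combination ha + hb
  rw [h5, Int.cast_smul_eq_zsmul] at h2
  refine (l2_LM c).2 ⟨_, x, ?_, by rw [← h4]⟩
  simpa using sub_mem (Submodule.smul_mem _ (a + b) (l2_η c)) h2

omit c in
variable (F) in
/-- The inclusion of `ℤ × H⁴(ℤ)`. -/
def l2j : (ℤ × Lk (XF F) 4) →ₗ[ℤ] MV F :=
  (l2ψ F).restrictScalars ℤ ∘ₗ (Algebra.linearMap ℤ ℂ).prodMap (Lk (XF F) 4).subtype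

omit c in
theorem l2j_apply (t : ℤ) (x : Lk (XF F) 4) : l2j F (t, x) = l2ψ F (t, x.1) := rfl

omit c in
theorem l2j_inj : Injective (l2j F) := fun ⟨t, x⟩ ⟨t', x'⟩ h => by
  have := Prod.ext_iff.1 (l2ψ_inj h)
  exact Prod.ext (Int.cast_injective (α := ℂ) this.1) (Subtype.ext this.2)

theorem l2j_range : LinearMap.range (l2j F) = LM F := Submodule.ext fun v => by
  rw [l2_LM c]
  exact ⟨fun ⟨z, e⟩ => ⟨z.1, z.2.1, z.2.2, e⟩, fun ⟨t, x, hx, e⟩ => ⟨(t, ⟨x, hx⟩), e⟩⟩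

/-- The Mukai lattice as an abstract group. -/
def l2e : (ℤ × Lk (XF F) 4) ≃ₗ[ℤ] LM F :=
  (LinearEquiv.ofInjective _ l2j_inj).trans (LinearEquiv.ofEq _ _ (l2j_range c))

theorem l2e_val (z : ℤ × Lk (XF F) 4) : (l2e c z).1 = l2j F z := rfl

theorem muk_finV : FiniteDimensional ℂ (MV F) :=
  haveI := (l2_lat c).finC
  inferInstance

theorem l2_VV : ((⊤ : Submodule ℂ ℂ).prod (H.deg _ 4)).map (l2ψ F) = VV F :=
  Submodule.ext fun _ => ⟨fun ⟨z, hz, e⟩ => e ▸ l2ψ_mem c z.1 hz.2, fun hv =>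
    (l2ψ_onto c hv).elim fun t h => h.elim fun x h => ⟨(t, x), ⟨trivial, h.1⟩, h.2⟩⟩

theorem muk_span : Submodule.span ℂ (LM F : Set (MV F)) = VV F := by
  refine le_antisymm (Submodule.span_le.2 (muk_le c)) fun v hv => ?_
  obtain ⟨t, x, hx, rfl⟩ := l2ψ_onto c hv
  have h1 : l2ψ F (t, x) = t • l2ψ F (1, 0) + l2ψ F (0, x) := by
    rw [← map_smul, ← map_add]
    simp
  rw [h1]
  refine add_mem (Submodule.smul_mem _ _ (Submodule.subset_span
    ((l2_LM c).2 ⟨1, 0, zero_mem _, by rw [Int.cast_one]⟩))) ?_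
  have h2 : x ∈ Submodule.span ℂ (Lk (XF F) 4 : Set (H (XF F))) := (l2_lat c).span ▸ hx
  exact (Submodule.span_le (p := (Submodule.span ℂ (LM F : Set (MV F))).comap
    (l2ψ F ∘ₗ LinearMap.inr ℂ ℂ _))).2 (fun y hy => Submodule.subset_span
      ((l2_LM c).2 ⟨0, y, hy, by rw [Int.cast_zero]; rfl⟩)) h2

theorem muk_free : Module.Free ℤ (LM F) :=
  haveI := (l2_lat c).free
  .of_equiv (l2e c)

theorem muk_fin : Module.Finite ℤ (LM F) :=
  haveI := (l2_lat c).fin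
  .equiv (l2e c)

theorem muk_rank : finrank ℤ (LM F) = 24 := by
  have := (l2_lat c).free
  have := (l2_lat c).fin
  rw [← (l2e c).finrank_eq, finrank_prod, finrank_self, (l2_lat c).rank]
  exact congrArg (1 + ·) c.per.cubH.b4

theorem muk_ind : ∀ (ι : Type) (v : ι → LM F), LinearIndependent ℤ v →
    LinearIndependent ℂ fun i => (v i).1 := by
  intro ι v hv
  have := (l2_lat c).free
  let b := Free.chooseBasis ℤ (Lk (XF F) 4)
  have h1 := (l2_lat c).ind _ b b.linearIndependent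
  have h2 := (linearIndependent_inl_union_inr' (Basis.singleton Unit ℂ).linearIndependent h1).map'
    (l2ψ F) (LinearMap.ker_eq_bot.2 l2ψ_inj)
  refine l2_ind (((Basis.singleton Unit ℤ).prod b).map (l2e c)) (LM F).subtype
    ((congrArg (fun w => LinearIndependent ℂ w) (funext fun k => ?_)).mp h2) hv
  rcases k with k | k <;> simp [l2e_val, l2j]

theorem muk_dim : finrank ℂ (VV F) = 24 := by
  have := muk_free c
  have := muk_fin c
  let b := finBasis ℤ (LM F)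
  have h := finrank_span_eq_card (muk_ind c _ b b.linearIndependent)
  have e : Submodule.span ℤ (range fun i => (b i).1) = LM F := by
    have := congrArg (Submodule.map (LM F).subtype) b.span_eq
    rwa [Submodule.map_span, ← range_comp, Submodule.map_subtype_top] at this
  rw [Fintype.card_fin, ← Submodule.span_span_of_tower ℤ, e, muk_span c] at h
  exact h.trans (muk_rank c)

omit c in
/-- **The Mukai lattice.** -/
theorem stLat : StLat := fun c =>
  ⟨muk_prim c, fun u u' x x' _ _ => muk_model c u u' x x', muk_bz c, muk_pos c, muk_bdd c, muk_l1,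
    muk_l2, muk_rot, muk_le c, muk_symm c, muk_nondeg c, muk_uni c, muk_span c, muk_finV c,
    muk_dim c, muk_free c, muk_fin c, muk_rank c, muk_ind c⟩

end Vale.Agent.P287T.Cl
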