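import Vale.Agent.P287T.Rr.Defs

/-!
# Chern characters of subbundles of sums of line bundles
-/

set_option linter.unusedSectionVars false

namespace Vale.Agent.P287T.Cl

open Set Function Module Matrix P269 P269.Ch P269.Grr P287T.Rr

variable {Y : Ch.Sp} {χ : Y.G →ₜ* ℂˣ} {ι κ μ : Type} [Fintype ι] [Fintype κ] [Fintype μ]
  {w : ι → ℤ} {w' : κ → ℤ} {w'' : μ → ℤ} {F : Y.T → Submodule ℂ (ι → ℂ)}
  {F' : Y.T → Submodule ℂ (κ → ℂ)} {F'' : Y.T → Submodule ℂ (μ → ℂ)} {r r' r'' : ℕ}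

theorem ad_hom (h : Fam χ w F r) (h' : Fam χ w' F' r') {s : ι → Prop} {D : Y.T → Matrix κ ι ℂ}
    (cD : Continuous D) (hs : ∀ t v, v ∈ F t → ∀ i, ¬s i → v i = 0) (hD : Eqm χ s w w' D)
    (hm : ∀ t v, v ∈ F t → D t *ᵥ v ∈ F' t) :
    Hom (Mor.id Y) h.vb h'.vb fun t => (D t).mulVecLin :=
  Hom.of_continuous hm ((cD.comp continuous_fst).matrix_mulVec continuous_snd) fun g t v hv =>
    ((congrArg (D (g • t) *ᵥ ·) (am_smul χ w g v)).trans (hD.mulVec g t (hs t v hv))).trans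
      (am_smul χ w' g (D t *ᵥ v)).symm

theorem ad_exact (h : Fam χ w F r) (h' : Fam χ w' F' r') (h'' : Fam χ w'' F'' r'')
    {s : ι → Prop} {s' : κ → Prop} {A : Y.T → Matrix κ ι ℂ} {B : Y.T → Matrix μ κ ℂ}
    (cA : Continuous A) (cB : Continuous B) (hs : ∀ t v, v ∈ F t → ∀ i, ¬s i → v i = 0)
    (hs' : ∀ t v, v ∈ F' t → ∀ i, ¬s' i → v i = 0) (hA : Eqm χ s w w' A) (hB : Eqm χ s' w' w'' B)
    (mA : ∀ t v, v ∈ F t → A t *ᵥ v ∈ F' t) (mB : ∀ t v, v ∈ F' t → B t *ᵥ v ∈ F'' t)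
    (inj : ∀ t v, v ∈ F t → A t *ᵥ v = 0 → v = 0)
    (surj : ∀ t v, v ∈ F'' t → ∃ u ∈ F' t, B t *ᵥ u = v)
    (ex : ∀ t v, v ∈ F' t → (B t *ᵥ v = 0 ↔ ∃ u ∈ F t, A t *ᵥ u = v)) :
    h'.vb.chc = h.vb.chc + h''.vb.chc :=
  Exact.chc ⟨ad_hom h h' cA hs hA mA, ad_hom h' h'' cB hs' hB mB, inj, surj, ex⟩

theorem ad_shift (h : Fam χ w F r) (m : ℤ) : Fam χ (fun i => w i + m) F r :=
  ⟨h.cl, h.rk, fun g t v hv => by
    refine (congrArg (· ∈ F (g • t)) (funext fun i => ?_)).mp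
      ((F _).smul_mem ((χ g : ℂ) ^ m) (h.iv g t v hv))
    rw [Pi.smul_apply, smul_eq_mul, zpow_add₀ (χ g).ne_zero]
    ring⟩

/-- The same family of subspaces with shifted weights. -/
theorem ad_tw {u : ι → ℤ} {G : Y.T → Submodule ℂ (ι → ℂ)} (h : Fam χ w F r) (h' : Fam χ u G r')
    (e : G = F) (m : ℤ) (hs : ∀ t v, v ∈ F t → ∀ i, u i ≠ w i + m → v i = 0) :
    h'.vb.chc = ex (m • c1 χ) * h.vb.chc := by
  subst e
  have k0 : ∀ (g : Y.G) t (v : ι → ℂ), v ∈ G t → ∀ i,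
      (χ g : ℂ) ^ u i * v i = ((χ ^ m) g : ℂ) * ((χ g : ℂ) ^ w i * v i) := fun g t v hv i => by
    rw [zp_apply]
    by_cases e : u i = w i + m
    · rw [e, zpow_add₀ (χ g).ne_zero]
      ring
    · rw [hs t v hv i e, mul_zero, mul_zero, mul_zero]
  have k : Iso (Mor.id Y) h'.vb (h.vb.tw (Mor.id Y) (χ ^ m)) fun _ => LinearMap.id :=
    ⟨Hom.of_continuous (fun _ _ hv => hv) continuous_snd fun g t v hv =>
      (am_smul χ u g v).trans (Eq.trans (funext (k0 g t v hv))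
        (congrArg (((χ ^ m) g : ℂ) • ·) (am_smul χ w g v)).symm),
      fun _ _ _ e => e, fun _ v hv => ⟨v, hv, rfl⟩⟩
  rw [Iso.chc' k, chc_tw, pS_id, c1_zpow]

/-- A frame of homogeneous vectors. -/
theorem ad_fr (h : Fam χ w F r) (m : μ → ℤ) (v : μ → Y.T → ι → ℂ) (cv : ∀ k, Continuous (v k))
    (ev : ∀ k (g : Y.G) t i, (χ g : ℂ) ^ w i * v k t i = (χ g : ℂ) ^ m k * v k (g • t) i)
    (li : ∀ t, LinearIndependent ℂ fun k => v k t)
    (sp : ∀ t, Submodule.span ℂ (range fun k => v k t) = F t) :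
    h.vb.chc = ∑ k, ex (m k • c1 χ) := by
  have k : Fr h.vb (fun k => χ ^ m k) v := ⟨cv, fun k g t => (am_smul χ w g (v k t)).trans
    (funext fun i => (ev k g t i).trans
      (congrArg (· * v k (g • t) i) (zp_apply χ (m k) g)).symm), li, sp⟩
  rw [Fr.chc k]
  exact Finset.sum_congr rfl fun k _ => by rw [c1_zpow]

variable [DecidableEq ι]

theorem eqm_one (s : ι → Prop) (w : ι → ℤ) : Eqm χ s w w fun _ => (1 : Matrix ι ι ℂ) :=
  fun g t i j _ => by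
    by_cases e : i = j
    · rw [e, mul_comm]
    · exact (mul_eq_zero_of_left (one_apply_ne e) _).trans
        (mul_eq_zero_of_right _ (one_apply_ne e)).symm

theorem fam_full (χ : Y.G →ₜ* ℂˣ) (s : ι → Prop) (w : ι → ℤ) :
    Fam χ w (fun _ => Vf s 1 0) (finrank ℂ (Vf s (1 : Matrix ι ι ℂ) 0)) :=
  fam_Vf (w' := w) continuous_const continuous_const (eqm_one s w)
    (fun _ _ _ _ _ => (zero_mul _).trans (mul_zero _).symm) fun _ => rfl

theorem chc_full (χ : Y.G →ₜ* ℂˣ) (s : ι → Prop) [DecidablePred s] (w : ι → ℤ) :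
    (fam_full χ s w).vb.chc = ∑ i with s i, ex (w i • c1 χ) := by
  rw [Finset.sum_subtype (p := s) _ (fun i => by simp) fun i => ex (w i • c1 χ)]
  refine ad_fr _ (fun k : {i // s i} => w k) (fun k _ => Pi.single k.1 1)
    (fun _ => continuous_const) (fun k g t i => ?_)
    (fun _ => (Pi.linearIndependent_single_one ι ℂ).comp _ Subtype.val_injective) fun _ => ?_
  · by_cases e : i = k
    · rw [e]
    · rw [Pi.single_eq_of_ne e, mul_zero, mul_zero]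
  · refine le_antisymm (Submodule.span_le.2 ?_) fun v hv => ?_
    · rintro _ ⟨k, rfl⟩
      exact ⟨fun i hi => Pi.single_eq_of_ne (fun e : i = k.1 => hi (e ▸ k.2)) _, one_mulVec _, zero_mulVec _⟩
    · rw [pi_eq_sum_univ' v]
      refine Submodule.sum_mem _ fun i _ => ?_
      by_cases e : s i
      · exact Submodule.smul_mem _ _ (Submodule.subset_span ⟨⟨i, e⟩, rfl⟩)
      · rw [hv.1 i e, zero_smul]
        exact zero_mem _

end Vale.Agent.P287T.Cl
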