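import Vale.Agent.P287T.Cl.Ad0
import Vale.Agent.P287T.Cy.Alg

/-!
# The kernel bundles of a matrix factorization: exact sequences, twists, contractible objects
-/

set_option linter.unusedSectionVars false

namespace Vale.Agent.P287T.Cl

open Set Function Module Matrix MvPolynomial P269 P269.Ch P269.Grr P287Q P287T.Rr P287T.Cy
  P287Z.O P287Z.O.L

variable {ι κ μ : Type} [Fintype ι] [Fintype κ] [Fintype μ] [DecidableEq ι] [DecidableEq κ]
  [DecidableEq μ] {W : S6} (c : Cu W) {p : ι → ℤ} {q : κ → ℤ} {r : μ → ℤ} {d : Matrix ι ι S6}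
  {e : Matrix κ κ S6} {δ : Matrix μ μ S6}

/-- the Chern character of the kernel of `d` on the generators `i` with `p i + a` even -/
noncomputable def cV (hd : IsMF W p d) (a : ℤ) : PowerSeries (Hev c.Y.X) := (c.fam hd a).vb.chc

theorem cV_zero (hd : IsMF W p d) : cV c hd 0 = (c.VE hd).chc := rfl

theorem eqm_evM {g : Matrix κ ι S6} {j : ℤ} (hg : g ∈ MM p q j) (s : ι → Prop) (w : ι → ℤ)
    (w' : κ → ℤ) (h : ∀ i l, s l → 2 ∣ j + p l - q i → j + p l - q i + 2 * w l = 2 * w' i) :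
    Eqm c.χ s w w' fun t => evM (c.x t) g :=
  fun a _ i l hl => hg_eval (hg i l) (c.χ a).ne_zero _ (h i l hl)

theorem wt_par {a b : ℤ} (h : 2 ∣ a - b) : a - b + 2 * wt a = 2 * wt b := by
  by_cases k : 2 ∣ a
  · have := wt_even k
    have := wt_even (a := b) (by omega)
    omega
  · have := wt_odd k
    have := wt_odd (a := b) (by omega)
    omega

theorem eqm_zero {g : Matrix κ ι S6} (hg : g ∈ MM p q 0) (s : ι → Prop) :
    Eqm c.χ s (fun i => wt (p i)) (fun i => wt (q i)) fun t => evM (c.x t) g :=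
  eqm_evM c hg s _ _ fun i l _ h => by
    rw [zero_add] at h ⊢
    exact wt_par h

theorem evM_par {g : Matrix κ ι S6} {j : ℤ} (hg : g ∈ MM p q j) (x : Fin 6 → ℂ) (i : κ) (l : ι)
    (h : ¬2 ∣ q i - p l + j) : evM x g i l = 0 :=
  (congrArg (MvPolynomial.eval x) (hga_odd_eq_zero (hg i l) (by omega))).trans (map_zero _)

theorem evM_sup {g : Matrix κ ι S6} {j : ℤ} (hg : g ∈ MM p q j) (x : Fin 6 → ℂ) {a b : ℤ}
    (hab : 2 ∣ a + j - b) {v : ι → ℂ} (hv : ∀ l, ¬2 ∣ p l + a → v l = 0) (i : κ)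
    (hi : ¬2 ∣ q i + b) : (evM x g *ᵥ v) i = 0 :=
  odd_mulVec (evM_par hg x) hv i (by omega)

theorem fib_lift {D H : Matrix ι ι ℂ} (h : Fib p 1 D H) {v : ι → ℂ} (hv : D *ᵥ v = 0) :
    D *ᵥ (H *ᵥ v) = v := by
  have h2 := congrArg (· *ᵥ v) h.h
  simpa only [add_mulVec, ← mulVec_mulVec, hv, mulVec_zero, add_zero, one_mulVec] using h2

theorem fib_sup {D H : Matrix ι ι ℂ} (h : Fib p 1 D H) {a b : ℤ} (hab : ¬2 ∣ a + b) {v : ι → ℂ}
    (hv : ∀ l, ¬2 ∣ p l + a → v l = 0) (i : ι) (hi : ¬2 ∣ p i + b) : (H *ᵥ v) i = 0 :=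
  odd_mulVec (p := p) (q := p) (b := 1) (fun i j k => h.oH i j (by omega)) hv i (by omega)

/-- **The two exact sequences** `0 → V^a → C^a → V^b (m) → 0`. -/
theorem cV_seq (hd : IsMF W p d) {a b m : ℤ} (hab : ¬2 ∣ a + b) (hm : m = if 2 ∣ a then 3 else 0) :
    ∑ i with 2 ∣ p i + a, ex (wt (p i) • c.h) = cV c hd a + ex (m • c.h) * cV c hd b := by
  have k := ad_exact (c.fam hd a) (fam_full c.χ (fun i => 2 ∣ p i + a) fun i => wt (p i))
    (ad_shift (c.fam hd b) m) (s := fun i => 2 ∣ p i + a) (s' := fun i => 2 ∣ p i + a)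
    (A := fun _ => 1) (B := fun t => evM (c.x t) d) continuous_const
    ((continuous_evM d).comp c.x_cont) (fun _ _ hv => hv.1) (fun _ _ hv => hv.1) (eqm_one _ _)
    (eqm_evM c hd.deg _ _ _ fun i l hl h => ?_)
    (fun t v hv => by rw [one_mulVec]; exact ⟨hv.1, hv.2.1, zero_mulVec _⟩)
    (fun t v hv => ⟨evM_sup hd.deg _ (by omega) hv.1, one_mulVec _, by
      rw [mulVec_mulVec, (fib c.sm hd (c.x_mem t)).DD, zero_mulVec]⟩)
    (fun t v _ h => (one_mulVec v).symm.trans h)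
    (fun t v hv => ⟨_, ⟨fib_sup (fib c.sm hd (c.x_mem t)) (by omega) hv.1, one_mulVec _,
      zero_mulVec _⟩, fib_lift (fib c.sm hd (c.x_mem t)) hv.2.2⟩)
    (fun t v hv => ⟨fun h => ⟨v, ⟨hv.1, hv.2.1, h⟩, one_mulVec _⟩, fun ⟨u, hu, h⟩ => by
      rw [← h, one_mulVec]; exact hu.2.2⟩)
  · rw [chc_full, ad_tw (c.fam hd b) (ad_shift (c.fam hd b) m) rfl m
      fun _ _ _ _ h => absurd rfl h] at k
    exact k
  · have hl : 2 ∣ p l + a := hl
    split_ifs at hm with ha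
    · have := wt_even (a := p l) (by omega)
      have := wt_odd (a := p i) (by omega)
      omega
    · have := wt_odd (a := p l) (by omega)
      have := wt_even (a := p i) (by omega)
      omega

/-- the part of a vector of a given parity -/
noncomputable def par (p : ι → ℤ) (a : ℤ) (v : ι → ℂ) : ι → ℂ :=
  fun i => if 2 ∣ p i + a then v i else 0

theorem par_sup (a : ℤ) (v : ι → ℂ) (i : ι) (hi : ¬2 ∣ p i + a) : par p a v i = 0 := if_neg hi

theorem par_eq {a : ℤ} {v : ι → ℂ} (hv : ∀ i, ¬2 ∣ p i + a → v i = 0) : par p a v = v :=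
  funext fun i => ite_eq_left_iff.2 fun h => (hv i h).symm

theorem evM_par_mulVec {g : Matrix κ ι S6} (hg : g ∈ MM p q 0) (x : Fin 6 → ℂ) (a : ℤ)
    (v : ι → ℂ) : evM x g *ᵥ par p a v = par q a (evM x g *ᵥ v) := funext fun i => by
  by_cases hi : 2 ∣ q i + a
  · refine Eq.trans (Finset.sum_congr rfl fun l _ => ?_) (if_pos hi).symm
    by_cases hl : 2 ∣ p l + a
    · exact congrArg (evM x g i l * ·) (if_pos hl)
    · exact (mul_eq_zero_of_left (evM_par hg x i l (by omega)) _).trans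
        (mul_eq_zero_of_left (evM_par hg x i l (by omega)) _).symm
  · exact (evM_sup hg x (by omega) (par_sup a v) i hi).trans (if_neg hi).symm

theorem evM_comm {f : Matrix κ ι S6} {j : ℤ} (hf : f ∈ ZZ p d q e j) (x : Fin 6 → ℂ) (v : ι → ℂ) :
    evM x e *ᵥ (evM x f *ᵥ v) = evM x f *ᵥ (evM x d *ᵥ v) := by
  rw [mulVec_mulVec, mulVec_mulVec, ← evM_mul, ← evM_mul, hf.2]

theorem evM_mem {f : Matrix κ ι S6} (hf : f ∈ ZZ p d q e 0) (x : Fin 6 → ℂ) (a : ℤ) {v : ι → ℂ}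
    (hv : v ∈ Vf (fun i => 2 ∣ p i + a) 1 (evM x d)) :
    evM x f *ᵥ v ∈ Vf (fun i => 2 ∣ q i + a) 1 (evM x e) :=
  ⟨evM_sup (mem_ZZ.1 hf).1 x (by omega) hv.1, one_mulVec _, by
    rw [evM_comm hf, hv.2.2, mulVec_zero]⟩

/-- **Additivity** in sequences that are exact at every point of the cubic. -/
theorem cV_ses (hd : IsMF W p d) (hδ : IsMF W r δ) (he : IsMF W q e) {f : Matrix μ ι S6}
    {g : Matrix κ μ S6} (hf : f ∈ ZZ p d r δ 0) (hg : g ∈ ZZ r δ q e 0)
    (inj : ∀ x ∈ Pub.cone W, ∀ v, evM x f *ᵥ v = 0 → v = 0)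
    (surj : ∀ x ∈ Pub.cone W, ∀ v, ∃ u, evM x g *ᵥ u = v)
    (exa : ∀ x ∈ Pub.cone W, ∀ v, evM x g *ᵥ v = 0 ↔ ∃ u, evM x f *ᵥ u = v) (a : ℤ) :
    cV c hδ a = cV c hd a + cV c he a := by
  refine ad_exact (c.fam hd a) (c.fam hδ a) (c.fam he a) (s := fun i => 2 ∣ p i + a)
    (s' := fun i => 2 ∣ r i + a) (A := fun t => evM (c.x t) f) (B := fun t => evM (c.x t) g)
    ((continuous_evM f).comp c.x_cont) ((continuous_evM g).comp c.x_cont) (fun _ _ hv => hv.1)
    (fun _ _ hv => hv.1) (eqm_zero c (mem_ZZ.1 hf).1 _) (eqm_zero c (mem_ZZ.1 hg).1 _)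
    (fun t v hv => evM_mem hf _ a hv) (fun t v hv => evM_mem hg _ a hv)
    (fun t v _ => inj _ (c.x_mem t) v) (fun t v hv => ?_) fun t v hv => ⟨fun h => ?_, ?_⟩
  · have k := fib c.sm he (c.x_mem t)
    obtain ⟨u, hu⟩ := surj _ (c.x_mem t) (hoM W e (c.x t) *ᵥ v)
    refine ⟨evM (c.x t) δ *ᵥ par r (a + 1) u, ⟨evM_sup hδ.deg _ (by omega) (par_sup _ u),
      one_mulVec _, by rw [mulVec_mulVec, (fib c.sm hδ (c.x_mem t)).DD, zero_mulVec]⟩, ?_⟩
    rw [← evM_comm hg, evM_par_mulVec (mem_ZZ.1 hg).1, hu, par_eq (fib_sup k (by omega) hv.1),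
      fib_lift k hv.2.2]
  · obtain ⟨u, hu⟩ := (exa _ (c.x_mem t) v).1 h
    have k : evM (c.x t) f *ᵥ par p a u = v := by
      rw [evM_par_mulVec (mem_ZZ.1 hf).1, hu, par_eq hv.1]
    exact ⟨par p a u, ⟨par_sup a u, one_mulVec _, inj _ (c.x_mem t) _ (by
      rw [← evM_comm hf, k, hv.2.2])⟩, k⟩
  · rintro ⟨u, -, hu⟩
    exact (exa _ (c.x_mem t) v).2 ⟨u, hu⟩

/-- **Block triangular factorizations.** -/
theorem cV_blocks {b : Matrix ι κ S6} (h : IsMF W (Sum.elim p q) (fromBlocks d b 0 e))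
    (hd : IsMF W p d) (he : IsMF W q e) (a : ℤ) : cV c h a = cV c hd a + cV c he a := by
  have k1 : ∀ x v, evM x (fromRows 1 0 : Matrix (ι ⊕ κ) ι S6) *ᵥ v = Sum.elim v 0 := fun x v => by
    rw [evM, fromRows_map, Matrix.map_one _ (map_zero _) (map_one _),
      Matrix.map_zero _ (map_zero _), fromRows_mulVec, one_mulVec, zero_mulVec]
  have k2 : ∀ x v, evM x (fromCols 0 1 : Matrix κ (ι ⊕ κ) S6) *ᵥ v = v ∘ Sum.inr := fun x v => by
    rw [evM, fromCols_map, Matrix.map_one _ (map_zero _) (map_one _),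
      Matrix.map_zero _ (map_zero _), fromCols_mulVec, one_mulVec, zero_mulVec, zero_add]
  refine cV_ses c hd h he (f := fromRows 1 0) (g := fromCols 0 1) ⟨fun i l => ?_, ?_⟩
    ⟨fun i l => ?_, ?_⟩ (fun x _ v hv => ?_) (fun x _ v => ⟨Sum.elim 0 v, k2 x _⟩)
    (fun x _ v => ?_) a
  · rcases i with i | i
    exacts [MM_one p i l, hga_zero _]
  · simp [fromBlocks_mul_fromRows, fromRows_mul]
  · rcases l with l | l
    exacts [hga_zero _, MM_one q i l]
  · simp [fromCols_mul_fromBlocks, mul_fromCols]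
  · exact congrArg (· ∘ Sum.inl) ((k1 x v).symm.trans hv)
  · rw [k2]
    refine ⟨fun hv => ⟨v ∘ Sum.inl, ?_⟩, ?_⟩
    · rw [k1, ← hv, Sum.elim_comp_inl_inr]
    · rintro ⟨u, rfl⟩
      rw [k1]
      rfl

/-- **Twists and signs.** -/
theorem cV_tw {p' : ι → ℤ} {d' : Matrix ι ι S6} (hd : IsMF W p d) (hd' : IsMF W p' d') {j : ℤ}
    (hp : ∀ i, p' i = p i + j) (hk : ∀ x v, evM x d' *ᵥ v = 0 ↔ evM x d *ᵥ v = 0) :
    cV c hd' 0 = ex ((if 2 ∣ j then -(j / 2) else (3 - j) / 2) • c.h) * cV c hd j := by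
  refine ad_tw (c.fam hd j) (c.fam hd' 0) (funext fun t => Submodule.ext fun v => and_congr
    (forall_congr' fun i => by beta_reduce; rw [hp, add_zero]) (and_congr_right fun _ => hk _ v)) _
    fun t v hv i hi => hv.1 i fun h => hi ?_
  have h : 2 ∣ p i + j := h
  have := wt_even h
  rw [hp]
  split_ifs with hj
  · have := wt_even (a := p i) (by omega)
    omega
  · have := wt_odd (a := p i) (by omega)
    omega

theorem hg_const {n : ℤ} {f : S6} (hf : V.Hg n f) (hn : n ≤ 0) (x y : Fin 6 → ℂ) :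
    eval x f = eval y f := by
  rw [eval_eq', eval_eq']
  refine Finset.sum_congr rfl fun m hm => ?_
  have h1 := hg_iff.1 hf m hm
  have h2 : m = 0 := (Finsupp.degree_eq_zero_iff m).1 (by omega)
  simp [h2]

theorem hg_zero {n : ℤ} {f : S6} (hf : V.Hg n f) (hn : n ≠ 0) : eval 0 f = 0 := by
  rw [eval_zero, constantCoeff_eq]
  by_contra h
  have h1 := hg_iff.1 hf 0 (mem_support_iff.2 h)
  rw [map_zero] at h1
  omega

theorem tri_inj {P : Matrix ι ι S6} (hP : P ∈ MM p p 0) (x y : Fin 6 → ℂ) {v : ι → ℂ}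
    (h1 : evM y P *ᵥ v = v) (h0 : evM x P *ᵥ v = 0) : v = 0 := by
  by_contra hv
  obtain ⟨i, hi, hm⟩ := Finset.exists_max_image (Finset.univ.filter fun i => v i ≠ 0) p
    ((ne_iff.1 hv).elim fun i hi => ⟨i, Finset.mem_filter.2 ⟨Finset.mem_univ _, hi⟩⟩)
  refine (Finset.mem_filter.1 hi).2 ((congrFun h1 i).symm.trans
    (Eq.trans (Finset.sum_congr rfl fun l _ => ?_) (congrFun h0 i)))
  by_cases hl : v l = 0
  · exact (mul_eq_zero_of_right _ hl).trans (mul_eq_zero_of_right _ hl).symm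
  · have := hm l (Finset.mem_filter.2 ⟨Finset.mem_univ _, hl⟩)
    exact congrArg (· * v l) (hg_const (hP i l) (by omega) y x)

/-- **The kernel bundle of a contractible factorization is a sum of line bundles.** -/
theorem cV_contr (hd : IsMF W p d) {k : Matrix ι ι S6} (hk : k ∈ MM p p (-3))
    (h1 : d * k + k * d = 1) (a : ℤ) :
    ∃ (ν : Type) (_ : Fintype ν) (m : ν → ℤ), cV c hd a = ∑ i, ex (m i • c.h) := by
  have hP : d * k ∈ MM p p 0 := MM_mul hd.deg hk (by norm_num)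
  let U : (Fin 6 → ℂ) → Submodule ℂ (ι → ℂ) := fun x => Vf (fun i => 2 ∣ p i + a) 1 (evM x d)
  have p1 : ∀ x, eval x W = 0 → ∀ v : ι → ℂ, (∀ i, ¬2 ∣ p i + a → v i = 0) →
      evM x (d * k) *ᵥ v ∈ U x := fun x hx v hv => ⟨evM_sup hP x (by omega) hv, one_mulVec _, by
    rw [evM_mul, mulVec_mulVec, ← Matrix.mul_assoc, sq_d hd, hx, zero_smul, Matrix.zero_mul,
      zero_mulVec]⟩
  have p2 : ∀ x v, v ∈ U x → evM x (d * k) *ᵥ v = v := fun x v hv => by
    have h2 : evM x (d * k) + evM x k * evM x d = 1 := by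
      rw [← evM_mul]
      exact (Matrix.map_add _ (map_add _) _ _).symm.trans ((congrArg (evM x) h1).trans
        (Matrix.map_one _ (map_zero _) (map_one _)))
    have h3 := congrArg (· *ᵥ v) h2
    simpa only [add_mulVec, ← mulVec_mulVec, hv.2.2, mulVec_zero, add_zero, one_mulVec] using h3
  have p3 : ∀ x y, eval x W = 0 → (U y).map (evM x (d * k)).mulVecLin ≤ U x := by
    rintro x y hx _ ⟨v, hv, rfl⟩
    exact p1 x hx v hv.1
  have p4 : ∀ x y, finrank ℂ ((U y).map (evM x (d * k)).mulVecLin) = finrank ℂ (U y) :=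
    fun x y => finrank_map_of_inj fun v hv => tri_inj hP x y (p2 y v hv)
  have w0 : eval (0 : Fin 6 → ℂ) W = 0 := by
    have := Hdg.eval_smul_of_hom c.hom 0 0
    rwa [zero_smul, zero_pow three_ne_zero, zero_mul] at this
  have p5 : ∀ x, eval x W = 0 → (U 0).map (evM x (d * k)).mulVecLin = U x := fun x hx =>
    Submodule.eq_of_le_of_finrank_le (p3 x 0 hx)
      (((p4 0 x).ge.trans (Submodule.finrank_mono (p3 0 x w0))).trans (p4 x 0).ge)
  let b : {i // 2 ∣ p i + a} → ι → ℂ := fun l => evM 0 (d * k) *ᵥ Pi.single l.1 1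
  have b1 : Submodule.span ℂ (range b) = U 0 := by
    refine le_antisymm (Submodule.span_le.2 ?_) fun v hv => ?_
    · rintro _ ⟨l, rfl⟩
      exact p1 0 w0 _ fun i hi => Pi.single_eq_of_ne (fun e : i = l.1 => hi (e ▸ l.2)) _
    · rw [← p2 0 v hv, pi_eq_sum_univ' v, mulVec_sum]
      refine Submodule.sum_mem _ fun i _ => ?_
      by_cases e : 2 ∣ p i + a
      · rw [mulVec_smul]
        exact Submodule.smul_mem _ _ (Submodule.subset_span ⟨⟨i, e⟩, rfl⟩)
      · rw [hv.1 i e, zero_smul, mulVec_zero]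
        exact zero_mem _
  obtain ⟨ν, s, hs, b2, b3⟩ := exists_linearIndependent' ℂ b
  have := Fintype.ofInjective s hs
  refine ⟨ν, inferInstance, fun i => wt (p (s i)), ad_fr (c.fam hd a) _
    (fun i t => evM (c.x t) (d * k) *ᵥ b (s i))
    (fun i => ((continuous_evM _).comp c.x_cont).matrix_mulVec continuous_const)
    (fun i g t l => ?_) (fun t => ?_) fun t => ?_⟩
  · have h2 := congrFun ((eqm_zero c hP fun _ => True).mulVec g t (v := b (s i))
      fun _ h => absurd trivial h) l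
    have h3 : (fun j => (c.χ g : ℂ) ^ wt (p j) * b (s i) j) =
        (c.χ g : ℂ) ^ wt (p (s i)) • b (s i) := funext fun j => by
      by_cases e : p j = p (s i)
      · rw [e]; rfl
      · have h4 : b (s i) j = 0 := (congrFun (mulVec_single_one _ _) j).trans
          (hg_zero (hP j (s i)) (by omega))
        rw [Pi.smul_apply, h4, mul_zero, smul_zero]
    rw [h3, mulVec_smul] at h2
    exact h2.symm
  · exact b3.map (f := (evM (c.x t) (d * k)).mulVecLin) (Submodule.disjoint_def.2 fun v hv h0 =>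
      tri_inj hP (c.x t) 0 (p2 0 v (b1.le (b2.le hv))) h0)
  · refine Eq.trans ?_ (p5 _ (c.x_mem t).2)
    rw [← b1, ← b2, Submodule.map_span, ← range_comp]
    rfl

end Vale.Agent.P287T.Cl
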