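import Vale.Agent.P287T.Cl.Ad1

/-!
# The class `nE`: additivity, twists, contractible objects (raw matrices)
-/

set_option linter.unusedSectionVars false

namespace Vale.Agent.P287T.Cl

open Set Function Module Matrix PowerSeries P269 P269.Ch P269.Grr P287Q P287T.Rr P287T.Cy

section alg

variable {R : Type*} [CommRing R] [Algebra ℂ R]

theorem ex_mul_one (x : R) (A : R⟦X⟧) : coeff 1 (ex x * A) = coeff 1 A + x * coeff 0 A := by
  simp [coeff_mul, coeff_ex, Finset.Nat.antidiagonal_succ]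

theorem ex_mul_two (x : R) (A : R⟦X⟧) :
    coeff 2 (ex x * A) = coeff 2 A + x * coeff 1 A + (2⁻¹ : ℂ) • x ^ 2 * coeff 0 A := by
  simp [coeff_mul, coeff_ex, Finset.Nat.antidiagonal_succ, add_assoc]

end alg

variable {ι κ μ : Type} [Fintype ι] [Fintype κ] [Fintype μ] [DecidableEq ι] [DecidableEq κ]
  [DecidableEq μ] {W : S6} (c : Cu W) {p : ι → ℤ} {q : κ → ℤ} {r : μ → ℤ} {d : Matrix ι ι S6}
  {e : Matrix κ κ S6} {δ : Matrix μ μ S6}

theorem cu_h4 : c.J (c.h ^ 4).1 = 3 := by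
  have := isAct
  have h := (Cub.cubF c.qm c.hom c.sm).deg
  rw [← c.h_val] at h
  exact h

theorem prim_add (a b : Hev c.Y.X) : c.prim (a + b) = c.prim a + c.prim b := by
  simp only [Cu.prim, add_mul, Subalgebra.coe_add, map_add, add_div, add_smul]
  abel

theorem prim_span {a : Hev c.Y.X} (ha : a ∈ ℂ ∙ c.h ^ 2) : c.prim a = 0 := by
  obtain ⟨s, rfl⟩ := Submodule.mem_span_singleton.1 ha
  rw [Cu.prim, smul_mul_assoc, ← pow_add, Subalgebra.coe_smul, map_smul, cu_h4, smul_eq_mul,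
    mul_div_cancel_right₀ _ three_ne_zero, sub_self]

theorem sq_mem (s : ℂ) (m n : ℤ) : s • (m • c.h * n • c.h) ∈ ℂ ∙ c.h ^ 2 := by
  rw [smul_mul_smul_comm, ← sq, ← Int.cast_smul_eq_zsmul ℂ]
  exact Submodule.smul_mem _ _ (Submodule.smul_mem _ _ (Submodule.mem_span_singleton_self _))

theorem ex_one_mem (m : ℤ) : c.h * coeff 1 (ex (m • c.h)) ∈ ℂ ∙ c.h ^ 2 := by
  simpa [coeff_ex] using sq_mem c 1 1 m

theorem ex_two_mem (m : ℤ) : coeff 2 (ex (m • c.h)) ∈ ℂ ∙ c.h ^ 2 := by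
  rw [coeff_ex, sq (m • c.h)]
  exact sq_mem c _ m m

theorem cV_rk (hd : IsMF W p d) (a : ℤ) : coeff 0 (cV c hd a) = (c.rk p d a : Hev c.Y.X) :=
  coeff_zero_chP _ _

theorem rk_mem (s : ℂ) (m : ℤ) (n : ℕ) : s • (m • c.h) ^ 2 * (n : Hev c.Y.X) ∈ ℂ ∙ c.h ^ 2 := by
  rw [mul_comm, ← nsmul_eq_mul, sq (m • c.h)]
  exact nsmul_mem (sq_mem c s m m) n

theorem cV_c1 (hd : IsMF W p d) (a : ℤ) : c.h * coeff 1 (cV c hd a) ∈ ℂ ∙ c.h ^ 2 := by
  have k : ∀ a b : ℤ, 2 ∣ a → ¬2 ∣ b → c.h * coeff 1 (cV c hd a) ∈ ℂ ∙ c.h ^ 2 ∧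
      c.h * coeff 1 (cV c hd b) ∈ ℂ ∙ c.h ^ 2 := fun a b ha hb => by
    have h0 := cV_seq c hd (a := a) (b := b) (m := 3) (by omega) (if_pos ha).symm
    have h1 := cV_seq c hd (a := b) (b := a) (m := 0) (by omega) (if_neg hb).symm
    rw [zero_smul, ex_zero, one_mul] at h1
    have s2 : ∀ a : ℤ, coeff 2 (∑ i with 2 ∣ p i + a, ex (wt (p i) • c.h)) ∈ ℂ ∙ c.h ^ 2 :=
      fun a => map_sum (coeff (R := Hev c.Y.X) 2) _ _ ▸ sum_mem fun i _ => ex_two_mem c _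
    have s1 : c.h * coeff 1 (∑ i with 2 ∣ p i + b, ex (wt (p i) • c.h)) ∈ ℂ ∙ c.h ^ 2 := by
      rw [map_sum, Finset.mul_sum]
      exact sum_mem fun i _ => ex_one_mem c _
    have h2 := sub_mem (sub_mem (s2 a) (s2 b)) (rk_mem c 2⁻¹ 3 (c.rk p d b))
    rw [h0, h1, map_add, map_add, ex_mul_two, cV_rk] at h2
    have h3 : c.h * coeff 1 (cV c hd b) ∈ ℂ ∙ c.h ^ 2 := by
      refine (congrArg (· ∈ ℂ ∙ c.h ^ 2) ?_).mp (Submodule.smul_mem _ (3⁻¹ : ℂ) h2)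
      rw [inv_smul_eq_iff₀ three_ne_zero, Algebra.smul_def (3 : ℂ), map_ofNat, zsmul_eq_mul]
      push_cast
      ring
    rw [h1, map_add, mul_add] at s1
    exact ⟨(add_mem_cancel_left h3).1 s1, h3⟩
  by_cases ha : 2 ∣ a
  exacts [(k a 1 ha (by omega)).1, (k 0 a (by omega) ha).2]

/-- the primitive part of the second Chern character -/
noncomputable def n2 (A : (Hev c.Y.X)⟦X⟧) : Hev c.Y.X := c.prim (coeff 2 A)

theorem n2_add (A B : (Hev c.Y.X)⟦X⟧) : n2 c (A + B) = n2 c A + n2 c B := by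
  rw [n2, map_add, prim_add]; rfl

theorem n2_lines {ν : Type} (s : Finset ν) (m : ν → ℤ) : n2 c (∑ i ∈ s, ex (m i • c.h)) = 0 :=
  prim_span c (map_sum (coeff (R := Hev c.Y.X) 2) _ _ ▸ sum_mem fun i _ => ex_two_mem c _)

theorem n2_tw (hd : IsMF W p d) (a m : ℤ) : n2 c (ex (m • c.h) * cV c hd a) = n2 c (cV c hd a) := by
  rw [n2, ex_mul_two, prim_add, prim_add, cV_rk, prim_span c (rk_mem c _ _ _), smul_mul_assoc,
    prim_span c (zsmul_mem (cV_c1 c hd a) m), add_zero, add_zero, n2]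

theorem n2_par (hd : IsMF W p d) {a b : ℤ} (hab : ¬2 ∣ a + b) :
    n2 c (cV c hd a) = -n2 c (cV c hd b) := by
  rw [eq_neg_iff_add_eq_zero, ← n2_tw c hd b, ← n2_add, ← cV_seq c hd hab rfl, n2_lines]

theorem nE_eq (hd : IsMF W p d) : c.nE hd = n2 c (cV c hd 0) := rfl

theorem n2_cV (hd : IsMF W p d) (a : ℤ) : n2 c (cV c hd a) = (a.negOnePow : ℤ) • c.nE hd := by
  rcases Int.even_or_odd a with h | h
  · obtain ⟨k, hk⟩ := id h
    rw [Int.negOnePow_even _ h, n2_par c hd (b := 1) (by omega), nE_eq,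
      n2_par c hd (a := 0) (b := 1) (by omega), Units.val_one, one_smul]
  · obtain ⟨k, hk⟩ := id h
    rw [Int.negOnePow_odd _ h, n2_par c hd (b := 0) (by omega), nE_eq, Units.val_neg,
      Units.val_one, neg_smul, one_smul]

/-- **Additivity** in sequences that are exact at every point of the cubic. -/
theorem nE_ses (hd : IsMF W p d) (hδ : IsMF W r δ) (he : IsMF W q e) {f : Matrix μ ι S6}
    {g : Matrix κ μ S6} (hf : f ∈ ZZ p d r δ 0) (hg : g ∈ ZZ r δ q e 0)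
    (inj : ∀ x ∈ Pub.cone W, ∀ v, evM x f *ᵥ v = 0 → v = 0)
    (surj : ∀ x ∈ Pub.cone W, ∀ v, ∃ u, evM x g *ᵥ u = v)
    (exa : ∀ x ∈ Pub.cone W, ∀ v, evM x g *ᵥ v = 0 ↔ ∃ u, evM x f *ᵥ u = v) :
    c.nE hδ = c.nE hd + c.nE he := by
  rw [nE_eq, cV_ses c hd hδ he hf hg inj surj exa, n2_add]; rfl

/-- **Block triangular factorizations.** -/
theorem nE_blocks {b : Matrix ι κ S6} (h : IsMF W (Sum.elim p q) (fromBlocks d b 0 e))
    (hd : IsMF W p d) (he : IsMF W q e) : c.nE h = c.nE hd + c.nE he := by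
  rw [nE_eq, cV_blocks c h hd he, n2_add]; rfl

/-- **Twists and signs.** -/
theorem nE_tw {p' : ι → ℤ} {d' : Matrix ι ι S6} (hd : IsMF W p d) (hd' : IsMF W p' d') {j : ℤ}
    (hp : ∀ i, p' i = p i + j) (hk : ∀ x v, evM x d' *ᵥ v = 0 ↔ evM x d *ᵥ v = 0) :
    c.nE hd' = (j.negOnePow : ℤ) • c.nE hd := by
  rw [nE_eq, cV_tw c hd hd' hp hk, n2_tw, n2_cV]

theorem evM_neg (x : Fin 6 → ℂ) (g : Matrix κ ι S6) : evM x (-g) = -evM x g :=
  Matrix.map_neg _ (map_neg _) _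

theorem nE_tw_neg {p' : ι → ℤ} (hd : IsMF W p d) (hd' : IsMF W p' (-d)) {j : ℤ}
    (hp : ∀ i, p' i = p i + j) : c.nE hd' = (j.negOnePow : ℤ) • c.nE hd :=
  nE_tw c hd hd' hp fun x v => by rw [evM_neg, neg_mulVec, neg_eq_zero]

theorem nE_tw_pos {p' : ι → ℤ} (hd : IsMF W p d) (hd' : IsMF W p' d) {j : ℤ}
    (hp : ∀ i, p' i = p i + j) : c.nE hd' = (j.negOnePow : ℤ) • c.nE hd :=
  nE_tw c hd hd' hp fun _ _ => Iff.rfl

/-- **Cones.** -/
theorem nE_cone {f : Matrix κ ι S6}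
    (h : IsMF W (Sum.elim q fun i => p i - 3) (fromBlocks e f 0 (-d))) (hd : IsMF W p d)
    (he : IsMF W q e) : c.nE h = c.nE he - c.nE hd := by
  have h1 : IsMF W (fun i => p i - 3) (-d) := ⟨neg_mem fun i j => by
    rw [show 3 + (p j - 3) - (p i - 3) = 3 + p j - p i by ring]
    exact hd.deg i j, (neg_mul_neg d d).trans hd.sq⟩
  rw [nE_blocks c h he h1, nE_tw_neg c hd h1 (j := -3) fun _ => rfl,
    Int.negOnePow_odd _ (by decide), Units.val_neg, Units.val_one, neg_smul, one_smul,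
    sub_eq_add_neg]

/-- **Contractible factorizations.** -/
theorem nE_contr (hd : IsMF W p d) (h : (1 : Matrix ι ι S6) ∈ BB p d p d 0) : c.nE hd = 0 := by
  obtain ⟨k, hk, h1⟩ := mem_BB.1 h
  obtain ⟨ν, _, m, h2⟩ := cV_contr c hd (k := k) hk h1.symm 0
  rw [nE_eq, h2, n2_lines]

end Vale.Agent.P287T.Cl
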