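import Vale.Agent.P287T.Cl.Defs

/-!
# The class map: the statements of the block
-/

noncomputable section

namespace Vale.Agent.P287T.Cl

open Set Function Matrix Filter Topology Module P291Z P269 P287Q P287Q.Cub P287Q.Zc P287T.Cy
  P287T.Rr P287T.G3 P287T.Top CategoryTheory

/-- The properties of the Mukai lattice. -/
structure IsMuk (F : S6) : Prop where
  prim : ∀ v ∈ LT F, H.IsDeg 4 v.2 ∧ hyp F * v.2 = 0 ∧ Mono.cj v.2 = v.2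
  model : ∀ (u u' : Fin 3 → ℤ) (x x' : H (XF F)), x ∈ Lk (XF F) 4 → x' ∈ Lk (XF F) 4 →
    ((u 0 + u 1 + u 2 : ℤ) : ℂ) = JF F (x * hyp F ^ 2) →
    ((u' 0 + u' 1 + u' 2 : ℤ) : ℂ) = JF F (x' * hyp F ^ 2) →
    mk (F := F) (eis u, pr F x) (eis u', pr F x') = (u ⬝ᵥ u' : ℤ) - JF F (x * x')
  bz : ∃ b : LT F →+ LT F →+ ℤ, (∀ v w, (b v w : ℂ) = mk v.1 w.1) ∧ (∀ v w, b v w = b w v) ∧
    ∀ v, Even (b v v)
  pos : ∀ v ∈ LT F, Hdg v → v.2 ≠ 0 → ∃ t : ℝ, 0 < t ∧ JF F (v.2 * v.2) = t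
  bdd : ∀ b : ℝ,
    {v | v ∈ LT F ∧ Hdg v ∧ Complex.normSq v.1 ≤ b ∧ (JF F (v.2 * v.2)).re ≤ b}.Finite
  l1 : l1 F ∈ LT F
  l2 : l2 F ∈ LT F
  rot : ∀ v ∈ LT F, (om * v.1, v.2) ∈ LT F
  le : ∀ x ∈ LM F, x ∈ VV F
  symm : ∀ x ∈ VV F, ∀ y ∈ VV F, mu F x y = mu F y x
  nondeg : ∀ x ∈ VV F, (∀ y ∈ VV F, mu F x y = 0) → x = 0
  uni : ∀ x ∈ VV F, (∀ y ∈ LM F, ∃ n : ℤ, mu F x y = n) → x ∈ LM F
  span : Submodule.span ℂ (LM F : Set (MV F)) = VV F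
  finV : FiniteDimensional ℂ (MV F)
  dim : finrank ℂ (VV F) = 24
  free : Module.Free ℤ (LM F)
  fin : Module.Finite ℤ (LM F)
  rank : finrank ℤ (LM F) = 24
  ind : ∀ (ι : Type) (v : ι → LM F), LinearIndependent ℤ v → LinearIndependent ℂ fun i => (v i).1

/-- The Mukai lattice of a smooth cubic. -/
def StLat : Prop := ∀ {F : S6}, Cu F → IsMuk F

/-- The form on `H⁴(ℤ)` with the properties used by the lattice theory. -/
def StForm : Prop := ∀ {F : S6}, Cu F → ∃ (B : LinearMap.BilinForm ℤ (Lk (XF F) 4))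
  (η : Lk (XF F) 4), (∀ x y, (B x y : ℂ) = JF F (x.1 * y.1)) ∧ η.1 = hyp F ^ 2 ∧
    Module.Free ℤ (Lk (XF F) 4) ∧ Module.Finite ℤ (Lk (XF F) 4) ∧ B.IsSymm ∧ Bijective B ∧
    Lat.Sig B 21 2 ∧ B η η = 3 ∧ ∀ x, Even (B x x - B x η)

/-- Transport preserves the lattice. -/
def StTr : Prop := ∀ {F F' : S6} {Φ}, Cu F → Cu F' → ∀ e : Per.Tr F F' Φ,
  Bijective (tr e.φ) ∧ (∀ v, tr e.φ v ∈ LT F ↔ v ∈ LT F') ∧
    (∀ v w, mk (tr e.φ v) (tr e.φ w) = mk v w) ∧ ∀ v, Node (tr e.φ v) ↔ Node v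

/-- The class of a matrix factorization is integral and of Hodge type. -/
def StMem : Prop := ∀ {W : S6} (c : Cu W) {ι : Type} [Fintype ι] [DecidableEq ι] {p : ι → ℤ}
  {d : Matrix ι ι S6} (hd : IsMF W p d), cl c hd ∈ LT W ∧ Hdg (cl c hd)

/-- The class is additive and compatible with the grading shift. -/
def StAdd : Prop := ∀ {W : S6} (c : Cu W), P294.AddTri (clE c) ∧
  (∀ E, clE c (tw ((mvCtx 6).en 1) E) = -(om ^ 2 * (clE c E).1, (clE c E).2)) ∧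
  ∀ E, Zf E = (1 - om) ^ 3 * (clE c E).1

end Vale.Agent.P287T.Cl
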