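import Vale.Agent.P287T.Cl.Ad2
import Vale.Agent.P287T.Cl.St
import Vale.Agent.P287T.Cy.Eq
import Vale.Agent.P287T.G3.Br2

/-!
# The class of a matrix factorization is additive and a homotopy invariant
-/

set_option linter.unusedSectionVars false

namespace Vale.Agent.P287T.Cl

open Matrix CategoryTheory CategoryTheory.Limits CategoryTheory.Pretriangulated P291Z P269 P287Q
  P287Q.Cub P287T.Cy P287T.Rr P287T.G3 P287T.Top

variable {W : S6} (c : Cu W)

theorem ray_ζ (n : ℤ) : P294.ray (-(n : ℝ) / 3) = ζ ^ n := by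
  have h : P294.ray (-1 / 3) = ζ := by
    rw [P294.ray_eq, show Real.pi * (-1 / 3) = -(Real.pi / 3) by ring, Real.cos_neg, Real.sin_neg,
      Real.cos_pi_div_three, Real.sin_pi_div_three, ζ]
  rw [← h, P294.ray, P294.ray, ← Complex.exp_int_mul]
  refine congrArg Complex.exp ?_
  push_cast
  ring

theorem Zf_eq_zE (E : HM W) : Zf E = zE E.pz := Finset.sum_congr rfl fun i _ => ray_ζ _

theorem ζ_ne : ζ ≠ 0 := ζ_eq ▸ neg_ne_zero.2 om_ne

theorem zE_add {ι : Type} [Fintype ι] {p p' : ι → ℤ} {j : ℤ} (hp : ∀ i, p' i = p i + j) :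
    zE p' = ζ ^ j * zE p := by
  rw [zE, zE, Finset.mul_sum]
  exact Finset.sum_congr rfl fun i _ => by rw [hp, zpow_add₀ ζ_ne, mul_comm]

theorem Zf_clE (E : HM W) : Zf E = (1 - om) ^ 3 * (clE c E).1 :=
  (Zf_eq_zE E).trans (mul_div_cancel₀ _ c0_ne).symm

theorem clE_fst (E : HM W) : (clE c E).1 = Zf E / (1 - om) ^ 3 := by rw [Zf_eq_zE]; rfl

theorem nE_congr {ι : Type} [Fintype ι] [DecidableEq ι] {p p' : ι → ℤ} {d : Matrix ι ι S6}
    (h : IsMF W p d) (h' : IsMF W p' d) (e : p = p') : c.nE h = c.nE h' := by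
  subst e
  rfl

theorem nE_coneR {E F : HM W} {f : Matrix F.ι E.ι S6} (hf : f ∈ ZZ E.pz E.dz F.pz F.dz 0) :
    c.nE (coneR hf).isMF = c.nE F.isMF - c.nE E.isMF := by
  have h : IsMF W (Sum.elim F.pz fun i => E.pz i - 3) (fromBlocks F.dz f 0 (-E.dz)) :=
    coneR_pz hf ▸ (coneR hf).isMF
  exact (nE_congr c (coneR hf).isMF h (coneR_pz hf)).trans (nE_cone c h E.isMF F.isMF)

theorem nE_isZero {E : HM W} (h : IsZero E) : c.nE E.isMF = 0 :=
  nE_contr c E.isMF ((isZero_iff_BB E).1 h)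

theorem nE_iso {E F : HM W} (e : E ≅ F) : c.nE E.isMF = c.nE F.isMF := by
  obtain ⟨f, hf, h⟩ := exists_mkR e.hom
  have h1 := nE_isZero c ((isIso_iff_cone hf).1 (h ▸ e.isIso_hom))
  rw [nE_coneR] at h1
  exact (sub_eq_zero.1 h1).symm

/-- **The class is invariant under isomorphisms.** -/
theorem clE_iso {E F : HM W} (e : E ≅ F) : clE c E = clE c F :=
  Prod.ext (by rw [clE_fst, clE_fst, K1a_Zf_iso e]) (congrArg Subtype.val (nE_iso c e))

theorem clE_isZero {E : HM W} (h : IsZero E) : clE c E = 0 :=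
  Prod.ext (by rw [clE_fst, K1a_Zf_zero h, zero_div]; rfl) (congrArg Subtype.val (nE_isZero c h))

section raw

variable {ι κ : Type} [Fintype ι] [Fintype κ] [DecidableEq ι] [DecidableEq κ] {p : ι → ℤ}
  {q : κ → ℤ} {d : Matrix ι ι S6} {e : Matrix κ κ S6}

theorem clE_ofRaw (hd : IsMF W p d) : clE c (ofRaw hd) = cl c hd := rfl

/-- **The class is invariant under homotopy equivalences.** -/
theorem cl_he (hd : IsMF W p d) (he : IsMF W q e) (h : HE p d q e) : cl c hd = cl c he :=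
  ((iso_iff (ofRaw hd) (ofRaw he)).2 h).elim (clE_iso c)

theorem nH_he (hd : IsMF W p d) (he : IsMF W q e) (h : HE p d q e) : nH c hd = nH c he :=
  congrArg Prod.snd (cl_he c hd he h)

theorem nE_he (hd : IsMF W p d) (he : IsMF W q e) (h : HE p d q e) : c.nE hd = c.nE he :=
  Subtype.ext (nH_he c hd he h)

theorem cl_blocks {b : Matrix ι κ S6} (h : IsMF W (Sum.elim p q) (fromBlocks d b 0 e))
    (hd : IsMF W p d) (he : IsMF W q e) : cl c h = cl c hd + cl c he :=
  Prod.ext ((congrArg (· / (1 - om) ^ 3) (Fintype.sum_sum_type _)).trans (add_div _ _ _))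
    (congrArg Subtype.val (nE_blocks c h hd he))

theorem cl_tw {p' : ι → ℤ} {d' : Matrix ι ι S6} (hd : IsMF W p d) (hd' : IsMF W p' d') {j : ℤ}
    (hp : ∀ i, p' i = p i + j) (hk : d' = d ∨ d' = -d) :
    cl c hd' = (ζ ^ j * (cl c hd).1, G3.sg j • (cl c hd).2) := by
  refine Prod.ext ((congrArg (· / (1 - om) ^ 3) (zE_add hp)).trans (mul_div_assoc _ _ _)) ?_
  rcases hk with rfl | rfl
  exacts [congrArg Subtype.val (nE_tw_pos c hd hd' hp),
    congrArg Subtype.val (nE_tw_neg c hd hd' hp)]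

end raw

/-- **The class is additive.** -/
theorem clE_add : P294.AddTri (clE c) := by
  rintro T ⟨E, F, f, hf, ⟨e⟩⟩
  have hf' := (mem_Z0_iff E F f).1 hf
  have h1 : clE c T.obj₁ = clE c E := clE_iso c (Triangle.π₁.mapIso e)
  have h2 : clE c T.obj₂ = clE c F := clE_iso c (Triangle.π₂.mapIso e)
  have h3 : clE c T.obj₃ = clE c (coneR hf') := clE_iso c (Triangle.π₃.mapIso e)
  have h4 : clE c (coneR hf') = clE c F - clE c E :=
    Prod.ext (by
      rw [Prod.fst_sub, clE_fst, clE_fst, clE_fst, ← sub_div, ← K1a_Zf_cone f hf]; rfl)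
      (congrArg Subtype.val (nE_coneR c hf'))
  rw [h1, h2, h3, h4, add_sub_cancel]

/-- **Twists.** -/
theorem clE_tw (j : ℤ) (E : HM W) :
    clE c (tw ((mvCtx 6).en j) E) = (ζ ^ (-j) * (clE c E).1, G3.sg j • (clE c E).2) := by
  rw [← G3.sg_neg j]
  refine cl_tw c E.isMF (MF.isMF (tw ((mvCtx 6).en j) E)) (fun i => tw_pz j E i) ?_
  rw [tw_dz]
  rcases Int.units_eq_one_or j.negOnePow with h | h
  · exact .inl (by rw [G3.sg, h, Units.val_one, one_smul])
  · exact .inr (by rw [G3.sg, h, Units.val_neg, Units.val_one, neg_smul, one_smul])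

theorem ζ_inv : ζ⁻¹ = -om ^ 2 :=
  inv_eq_of_mul_eq_one_right (by rw [ζ_eq]; linear_combination om_cube)

theorem clE_tw_one (E : HM W) :
    clE c (tw ((mvCtx 6).en 1) E) = -(om ^ 2 * (clE c E).1, (clE c E).2) := by
  rw [clE_tw, _root_.zpow_neg_one, ζ_inv, neg_mul, show G3.sg 1 = -1 from rfl, neg_smul, one_smul]
  rfl

/-- The rotation. -/
theorem clE_tw_two (E : HM W) :
    clE c (tw ((mvCtx 6).en 2) E) = (om * (clE c E).1, (clE c E).2) := by
  rw [clE_tw, show G3.sg 2 = 1 from rfl, one_smul, _root_.zpow_neg, ← _root_.inv_zpow, ζ_inv, zpow_ofNat,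
    show (-om ^ 2) ^ 2 = om by linear_combination om * om_cube]

theorem clE_shift (k : ℤ) (E : HM W) : clE c (E⟦k⟧) = G3.sg k • clE c E := by
  rw [shift_eq, clE_tw, sg_five_mul, ← mul_neg, _root_.zpow_mul, zpow_ofNat,
    show ζ ^ 3 = -1 by rw [ζ_eq]; linear_combination -om_cube, ← Int.cast_negOnePow,
    Int.negOnePow_neg, ← zsmul_eq_mul]
  rfl

theorem clE_shift_one (E : HM W) : clE c (E⟦(1 : ℤ)⟧) = -clE c E := by
  rw [clE_shift, show G3.sg 1 = -1 from rfl, neg_smul, one_smul]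

theorem stAdd : StAdd := fun c => ⟨clE_add c, clE_tw_one c, Zf_clE c⟩

end Vale.Agent.P287T.Cl
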