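import Vale.Agent.P287T.Rr.Defs
import Vale.Agent.P287T.Top.Defs
import Vale.Agent.P287T.G3.Br

/-!
# The class of a matrix factorization in the Mukai lattice (definitions)

`cl E = (z_E / (1 - ω)³, n_E)`.  The complexified lattice is modelled by the pairs `(α, n)`,
`α ∈ ℂ³` with sum zero, `n` primitive of degree four, with the pairing `α ⬝ α' - ∫ n n'`.
-/

set_option linter.unusedSectionVars false

noncomputable section

namespace Vale.Agent.P287T.Cl

open Set Function Matrix P291Z P269 P287Q P287Q.Cub P287Q.Zc P287T.Cy P287T.Rr P287T.Top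

theorem _root_.Vale.Agent.P287T.Per.Sm.cu {F : S6} (h : Per.Sm F) : Cu F := ⟨h.hom, h.sm⟩

theorem _root_.Vale.Agent.P287T.Rr.Cu.per {F : S6} (c : Cu F) : Per.Sm F := ⟨c.hom, c.sm⟩

theorem sq3 : (√3 : ℝ) * √3 = 3 := Real.mul_self_sqrt (by norm_num)

theorem om_sq : om ^ 2 = -1 - om := by
  refine Complex.ext ?_ ?_
  · simp [om, sq]
    linear_combination (-1 / 4) * sq3
  · simp [om, sq]
    ring

theorem om_cube : om ^ 3 = 1 := by linear_combination (om - 1) * om_sq

theorem om_ne : om ≠ 0 := fun h => by simpa [h] using om_cube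

theorem ζ_eq : ζ = -om := Complex.ext (by simp [ζ, om]; ring) (by simp [ζ, om])

theorem c0_eq : (1 - om) ^ 3 = -3 - 6 * om := by linear_combination (4 - om) * om_sq

theorem c0_val : (1 - om) ^ 3 = -(3 * √3 : ℝ) * Complex.I := by
  rw [c0_eq]
  refine Complex.ext ?_ ?_ <;> simp [om] <;> ring

theorem c0_sq : ((1 - om) ^ 3) ^ 2 = -27 := by
  rw [c0_eq]
  linear_combination 36 * om_sq

theorem c0_ne : (1 - om) ^ 3 ≠ 0 := fun h => by
  have := c0_sq
  rw [h] at this
  norm_num at this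

theorem conj_c0 : starRingEnd ℂ ((1 - om) ^ 3) = -(1 - om) ^ 3 := by
  rw [c0_val, map_mul, map_neg, Complex.conj_ofReal, Complex.conj_I, mul_neg]

theorem re_div (z z' : ℂ) : (starRingEnd ℂ (z / (1 - om) ^ 3) * (z' / (1 - om) ^ 3)).re =
    (starRingEnd ℂ z * z').re / 27 := by
  rw [map_div₀, conj_c0, div_mul_div_comm, neg_mul, ← sq, c0_sq, neg_neg, Complex.div_ofNat_re]

variable {F : S6} {ι : Type} [Fintype ι] [DecidableEq ι] {p : ι → ℤ} {d : Matrix ι ι S6}

/-- The class `n_E` in the cohomology ring. -/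
def nH (c : Cu F) (hd : IsMF F p d) : H (XF F) := (c.nE hd).1

/-- **The class of a matrix factorization.** -/
def cl (c : Cu F) (hd : IsMF F p d) : Cls F := (zE p / (1 - om) ^ 3, nH c hd)

/-- The class of an object of the category of matrix factorizations. -/
def clE (c : Cu F) (E : G3.HM F) : Cls F := cl c E.isMF

/-- Riemann-Roch in terms of the Mukai pairing. -/
theorem chi_eq (h : HRR) {κ : Type} [Fintype κ] [DecidableEq κ] {q : κ → ℤ} {e : Matrix κ κ S6}
    (c : Cu F) (hd : IsMF F p d) (he : IsMF F q e) :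
    (chi p d q e : ℂ) = -mk (cl c hd) (cl c he) := by
  rw [h c hd he, mk, neg_sub, cl, cl, re_div]
  refine congrArg₂ (· - ·) rfl ?_
  push_cast
  ring

/-! ## The bilinear model -/

/-- The coordinates in `A₂ ⊗ ℝ` of a complex number. -/
def al (a : ℂ) : Fin 3 → ℂ :=
  ![(2 / 3 * a.re : ℝ), (-a.re / 3 + √3 * a.im / 3 : ℝ), (-a.re / 3 - √3 * a.im / 3 : ℝ)]

theorem al_dot (a a' : ℂ) : al a ⬝ᵥ al a' = 2 / 3 * (starRingEnd ℂ a * a').re := by
  simp only [al, dotProduct, Fin.sum_univ_three, cons_val_zero, cons_val_one, cons_val_two,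
    head_cons, tail_cons, Complex.mul_re, Complex.conj_re, Complex.conj_im]
  have : ((√3 : ℝ) : ℂ) * (√3 : ℝ) = 3 := by exact_mod_cast sq3
  push_cast
  linear_combination (2 / 9 * a.im * a'.im : ℂ) * this

theorem al_add (a a' : ℂ) : al (a + a') = al a + al a' := by
  funext k
  fin_cases k <;> simp [al] <;> ring

theorem al_sum (a : ℂ) : al a 0 + al a 1 + al a 2 = 0 := by
  simp [al]
  ring

theorem al_om (a : ℂ) : al a 0 + al a 1 * om + al a 2 * om ^ 2 = a := by
  rw [om_sq]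
  refine Complex.ext ?_ ?_
  · simp [al, om]
    ring
  · simp [al, om]
    linear_combination (a.im / 3) * sq3

theorem al_eis (u : Fin 3 → ℤ) (k : Fin 3) : al (eis u) k = u k - (u 0 + u 1 + u 2) / 3 := by
  have : ((√3 : ℝ) : ℂ) * (√3 : ℝ) = 3 := by exact_mod_cast sq3
  rw [eis, om_sq]
  fin_cases k <;> simp [al, om]
  · ring
  · linear_combination ((u 1 : ℂ) - u 2) / 6 * this
  · linear_combination ((u 2 : ℂ) - u 1) / 6 * this

variable (F)

/-- The ambient space of the complexified Mukai lattice. -/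
abbrev MV : Type := (Fin 3 → ℂ) × H (XF F)

/-- The bilinear Mukai pairing. -/
def mu : LinearMap.BilinForm ℂ (MV F) :=
  (dotProductBilin ℂ ℂ).compl₁₂ (LinearMap.fst ℂ _ _) (LinearMap.fst ℂ _ _) -
    ((LinearMap.mul ℂ (H (XF F))).compr₂ (JF F)).compl₁₂ (LinearMap.snd ℂ _ _) (LinearMap.snd ℂ _ _)

theorem mu_apply (v w : MV F) : mu F v w = v.1 ⬝ᵥ w.1 - JF F (v.2 * w.2) := rfl

/-- The complexified Mukai lattice. -/
def VV : Submodule ℂ (MV F) where
  carrier := {v | v.1 0 + v.1 1 + v.1 2 = 0 ∧ H.IsDeg 4 v.2 ∧ hyp F * v.2 = 0}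
  zero_mem' := ⟨by simp, zero_mem (H.deg _ 4), mul_zero _⟩
  add_mem' {a b} h k := ⟨by simp only [Prod.fst_add, Pi.add_apply]; linear_combination h.1 + k.1,
    add_mem (s := H.deg _ 4) h.2.1 k.2.1, by rw [Prod.snd_add, mul_add, h.2.2, k.2.2, add_zero]⟩
  smul_mem' c a h := ⟨by
    simp only [Prod.smul_fst, Pi.smul_apply, smul_eq_mul]; linear_combination c * h.1,
    (H.deg _ 4).smul_mem c h.2.1, by rw [Prod.smul_snd, mul_smul_comm, h.2.2, smul_zero]⟩

/-- The embedding of the classes in the bilinear model. -/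
def mv : Cls F →+ MV F :=
  AddMonoidHom.mk' (fun v => (al v.1, v.2)) fun _ _ => Prod.ext (al_add _ _) rfl

/-- The Mukai lattice in the bilinear model. -/
def LM : Submodule ℤ (MV F) := ((LT F).map (mv F)).toIntSubmodule

variable {F}

theorem mv_apply (v : Cls F) : mv F v = (al v.1, v.2) := rfl

theorem mv_injective : Injective (mv F) := fun v w h =>
  Prod.ext (by rw [← al_om v.1, ← al_om w.1, show al v.1 = al w.1 from congrArg Prod.fst h])
    (congrArg Prod.snd h :)

theorem mu_mv (v w : Cls F) : mu F (mv F v) (mv F w) = mk v w :=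
  congrArg₂ (· - ·) (al_dot _ _) rfl

theorem mem_LM {x : MV F} : x ∈ LM F ↔ ∃ v ∈ LT F, mv F v = x := Iff.rfl

theorem mv_mem_LM {v : Cls F} : mv F v ∈ LM F ↔ v ∈ LT F :=
  ⟨fun ⟨_, h, e⟩ => mv_injective e ▸ h, fun h => ⟨v, h, rfl⟩⟩

end Vale.Agent.P287T.Cl
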