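import Vale.Agent.P269.Grr.Alg

/-!
# Chern characters with coefficients in a graded family of subgroups
-/

namespace Vale.Agent.P287T.Cl

open PowerSeries P269 P269.Ch P269.Grr

section ring

variable {R : Type*} [Ring R]

/-- A multiplicative family of subgroups. -/
structure Gr (G : ℕ → AddSubgroup R) : Prop where
  one : 1 ∈ G 0
  mul : ∀ i j, ∀ a ∈ G i, ∀ b ∈ G j, a * b ∈ G (i + j)

variable {G : ℕ → AddSubgroup R} (g : Gr G)
include g

theorem Gr.mul' {i j k : ℕ} {a b : R} (ha : a ∈ G i) (hb : b ∈ G j) (e : i + j = k) :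
    a * b ∈ G k := e ▸ g.mul i j a ha b hb

theorem Gr.pow {a : R} (ha : a ∈ G 1) (k : ℕ) : a ^ k ∈ G k := by
  induction k with
  | zero => exact pow_zero a ▸ g.one
  | succ k ih => exact pow_succ a k ▸ g.mul _ _ _ ih _ ha

theorem Gr.int (n : ℤ) : (n : R) ∈ G 0 := zsmul_one (R := R) n ▸ (G 0).zsmul_mem g.one n

theorem Gr.comap {S : Type*} [Ring S] (f : S →+* R) :
    Gr fun k => (G k).comap f.toAddMonoidHom :=
  ⟨show f 1 ∈ G 0 from map_one f ▸ g.one, fun i j a ha b hb =>
    show f (a * b) ∈ G (i + j) from map_mul f a b ▸ g.mul i j _ ha _ hb⟩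

end ring

variable {R : Type*} [CommRing R] [Algebra ℂ R] {G : ℕ → AddSubgroup R} {A B : R⟦X⟧}

omit [Algebra ℂ R] in
theorem Gr.smul (g : Gr G) (hA : ∀ k, coeff k A ∈ G k) (hB : ∀ k, coeff k B ∈ G k) (k : ℕ) :
    coeff k (A * B) ∈ G k := by
  rw [coeff_mul]
  exact sum_mem fun p hp => g.mul' (hA _) (hB _) (Finset.HasAntidiagonal.mem_antidiagonal.1 hp)

omit [Algebra ℂ R] in
theorem Gr.inv (g : Gr G) (hA : ∀ k, coeff k A ∈ G k) (k : ℕ) :
    coeff k (invOfUnit A 1) ∈ G k := by
  induction k using Nat.strong_induction_on with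
  | _ k ih =>
    rw [coeff_invOfUnit]
    split_ifs with h
    · subst h
      simpa using g.one
    · simp only [inv_one, Units.val_one, neg_mul, one_mul]
      refine neg_mem (sum_mem fun p hp => ?_)
      split_ifs with h'
      exacts [g.mul' (hA _) (ih _ h') (Finset.HasAntidiagonal.mem_antidiagonal.1 hp), zero_mem _]

theorem Gr.psum (g : Gr G) {r : ℕ} {P : Polynomial R} (h : ∀ k ≤ r, P.coeff (r - k) ∈ G k) (k : ℕ) :
    coeff k (psum r P) ∈ G k := by
  have h1 : ∀ k, coeff k (revS r P) ∈ G k := fun k => by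
    rw [revS, coeff_mk]
    split_ifs with e
    · simpa using (G k).zsmul_mem (h k e) ((-1) ^ k)
    · exact zero_mem _
  rw [Grr.psum, map_sub]
  refine sub_mem ?_ (g.smul (fun k => ?_) (g.inv h1) k)
  · rw [← map_natCast (C (R := R)), coeff_C]
    split_ifs with e
    · subst e
      simpa using g.int r
    · exact zero_mem _
  · rw [coeff_X_mul_derivative, Nat.cast_smul_eq_nsmul]
    exact (G k).nsmul_mem (h1 k) k

theorem coeff_two_chP {r : ℕ} {P : Polynomial R} (hP : Mon r P) :
    (1 / 2 : ℂ) • coeff 1 (chP r P) ^ 2 - coeff 2 (chP r P) = coeff 2 (revS r P) := by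
  have h0 : coeff 0 (revS r P) = 1 := by simp [revS, hP.coeff]
  have e := AlgP.revS_inv hP
  have i0 : coeff 0 (invOfUnit (revS r P) 1) = 1 := by simp [coeff_invOfUnit]
  have i1 : coeff 1 (invOfUnit (revS r P) 1) = -coeff 1 (revS r P) := by
    have := congrArg (coeff 1) e
    rw [coeff_mul, Finset.Nat.antidiagonal_succ, Finset.sum_cons, Finset.Nat.antidiagonal_zero,
      Finset.map_singleton, Finset.sum_singleton, coeff_one, if_neg one_ne_zero] at this
    simp only [Function.Embedding.prodMap, Function.Embedding.coeFn_mk, Prod.map_apply,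
      Nat.succ_eq_add_one, Function.Embedding.refl_apply, zero_add, h0, i0] at this
    linear_combination this
  have c : ∀ k ≠ 0, coeff k (r : R⟦X⟧) = 0 := fun k hk => by
    rw [← map_natCast (C (R := R)), coeff_C, if_neg hk]
  have d := coeff_X_mul_derivative (revS r P)
  rw [chP, coeff_hd, coeff_hd, Grr.psum]
  generalize X * d⁄dX R (revS r P) = D at d
  simp only [map_sub, c 1 one_ne_zero, c 2 two_ne_zero, coeff_mul, d,
    Finset.Nat.antidiagonal_succ, Finset.sum_cons,
    Finset.Nat.antidiagonal_zero, Finset.map_singleton, Finset.sum_singleton, Finset.map_cons,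
    Function.Embedding.prodMap, Function.Embedding.coeFn_mk, Prod.map_apply, Nat.succ_eq_add_one,
    Function.Embedding.refl_apply, zero_add, i0, i1, Algebra.smul_def]
  simp only [Nat.factorial, Nat.cast_ofNat, Nat.cast_one, Nat.cast_zero, map_zero, map_one, inv_one,
    Nat.succ_eq_add_one, Nat.reduceAdd, mul_one, map_ofNat, one_div]
  have : algebraMap ℂ R 2⁻¹ * 2 = 1 := by
    rw [← map_ofNat (algebraMap ℂ R) 2, ← map_mul, inv_mul_cancel₀ two_ne_zero, map_one]
  linear_combination (coeff 2 (revS r P)) * this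

/-- `A` has the properties of the Chern character of a bundle whose Chern classes lie in `G`. -/
structure KZ (G : ℕ → AddSubgroup R) (A : R⟦X⟧) : Prop where
  rk : ∃ n : ℤ, coeff 0 A = n
  pw : ∀ k, (k.factorial : ℂ) • coeff k A ∈ G k
  c2 : (1 / 2 : ℂ) • coeff 1 A ^ 2 - coeff 2 A ∈ G 2

theorem KZ.c1 (h : KZ G A) : coeff 1 A ∈ G 1 := by simpa using h.pw 1

theorem Gr.chP (g : Gr G) {r : ℕ} {P : Polynomial R} (hP : Mon r P)
    (h : ∀ k ≤ r, P.coeff (r - k) ∈ G k) : KZ G (chP r P) where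
  rk := ⟨r, by rw [coeff_zero_chP, Int.cast_natCast]⟩
  pw k := by
    rw [Grr.chP, coeff_hd, smul_smul, mul_inv_cancel₀ (Nat.cast_ne_zero.2 k.factorial_ne_zero),
      one_smul]
    exact g.psum h k
  c2 := by
    rw [coeff_two_chP hP, revS, coeff_mk]
    split_ifs with e
    · simpa using h 2 e
    · exact zero_mem _

theorem half_two : algebraMap ℂ R (1 / 2) * 2 = 1 := by
  rw [← map_ofNat (algebraMap ℂ R) 2, ← map_mul, one_div, inv_mul_cancel₀ two_ne_zero, map_one]

theorem KZ.zero : KZ G 0 :=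
  ⟨⟨0, by simp⟩, fun k => by simp, by simp⟩

theorem KZ.add (g : Gr G) (hA : KZ G A) (hB : KZ G B) : KZ G (A + B) where
  rk := hA.rk.elim fun m e => hB.rk.elim fun n e' => ⟨m + n, by rw [map_add, e, e', Int.cast_add]⟩
  pw k := by
    rw [map_add, smul_add]
    exact add_mem (hA.pw k) (hB.pw k)
  c2 := by
    have := add_mem (add_mem hA.c2 hB.c2) (g.mul _ _ _ hA.c1 _ hB.c1)
    refine (congrArg (· ∈ G 2) ?_).mp this
    simp only [map_add, Algebra.smul_def]
    linear_combination (-(coeff 1 A * coeff 1 B)) * half_two (R := R)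

theorem KZ.neg (g : Gr G) (hA : KZ G A) : KZ G (-A) where
  rk := hA.rk.elim fun m e => ⟨-m, by rw [map_neg, e, Int.cast_neg]⟩
  pw k := by
    rw [map_neg, smul_neg]
    exact neg_mem (hA.pw k)
  c2 := by
    have := sub_mem (g.mul _ _ _ hA.c1 _ hA.c1) hA.c2
    refine (congrArg (· ∈ G 2) ?_).mp this
    simp only [map_neg, Algebra.smul_def]
    linear_combination (-(coeff 1 A * coeff 1 A)) * half_two (R := R)

theorem KZ.sub (g : Gr G) (hA : KZ G A) (hB : KZ G B) : KZ G (A - B) :=
  sub_eq_add_neg A B ▸ hA.add g (hB.neg g)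

theorem KZ.sum (g : Gr G) {ι : Type*} (s : Finset ι) {f : ι → R⟦X⟧} (h : ∀ i ∈ s, KZ G (f i)) :
    KZ G (∑ i ∈ s, f i) :=
  Finset.sum_induction f (KZ G) (fun _ _ => KZ.add g) KZ.zero h

theorem KZ.ex_mul (g : Gr G) {x : R} (hx : x ∈ G 1) (hA : KZ G A) : KZ G (ex x * A) where
  rk := hA.rk.elim fun m e => ⟨m, by
    rw [coeff_mul, Finset.Nat.antidiagonal_zero, Finset.sum_singleton, coeff_ex, e]
    simp⟩
  pw k := by
    rw [coeff_mul, Finset.smul_sum]
    refine sum_mem fun p hp => ?_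
    have e := Finset.HasAntidiagonal.mem_antidiagonal.1 hp
    have := (G k).nsmul_mem (g.mul' (g.pow hx p.1) (hA.pw p.2) e) (k.choose p.1)
    refine (congrArg (· ∈ G k) ?_).mp this
    rw [coeff_ex, smul_mul_assoc, smul_smul, mul_smul_comm, ← Nat.cast_smul_eq_nsmul ℂ, smul_smul]
    congr 1
    rw [← e, eq_mul_inv_iff_mul_eq₀ (Nat.cast_ne_zero.2 p.1.factorial_ne_zero)]
    rw [add_comm]
    exact_mod_cast (mul_right_comm _ _ _).trans
      ((mul_right_comm _ _ _).trans (Nat.add_choose_mul_factorial_mul_factorial p.2 p.1))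
  c2 := by
    obtain ⟨m, e⟩ := hA.rk
    obtain ⟨n, hn⟩ := Int.even_mul_pred_self m
    have := add_mem (add_mem hA.c2 ((G 2).zsmul_mem (g.mul _ _ _ hx _ hA.c1) (m - 1)))
      ((G 2).zsmul_mem (g.pow hx 2) n)
    refine (congrArg (· ∈ G 2) ?_).mp this
    have hn' : (m : R) * (m - 1) = n + n := by exact_mod_cast congrArg (Int.cast : ℤ → R) hn
    simp only [coeff_mul, coeff_ex, Finset.Nat.antidiagonal_succ, Finset.sum_cons,
      Finset.Nat.antidiagonal_zero, Finset.map_singleton, Finset.sum_singleton, Finset.map_cons,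
      Function.Embedding.prodMap, Function.Embedding.coeFn_mk, Prod.map_apply, Nat.succ_eq_add_one,
      Function.Embedding.refl_apply, zero_add, e, Algebra.smul_def]
    simp only [Nat.factorial, Nat.cast_ofNat, Nat.cast_one, map_one, Nat.succ_eq_add_one,
      Nat.reduceAdd, mul_one, ← one_div, Int.cast_sub, Int.cast_one, div_one, algebraMap_int_eq,
      eq_intCast]
    linear_combination (-(x * coeff 1 A * m) - n * x ^ 2) * half_two (R := R) -
      algebraMap ℂ R (1 / 2) * x ^ 2 * hn'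

theorem KZ.one (g : Gr G) : KZ G 1 :=
  ⟨⟨1, by simp⟩, fun k => by
    rw [coeff_one]
    split_ifs with e
    · subst e
      simpa using g.one
    · simp, by simp [coeff_one]⟩

theorem KZ.ex (g : Gr G) {x : R} (hx : x ∈ G 1) : KZ G (ex x) :=
  mul_one (Grr.ex x) ▸ (KZ.one g).ex_mul g hx

end Vale.Agent.P287T.Cl
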