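import Vale.Agent.P287Q.Lat.Sgn
import Vale.Agent.P287Q.Lat.Sum

/-!
# The Mukai lattice glued from `A₂` and the primitive lattice: the algebraic model
-/

namespace Vale.Agent.P287T.Cl

open Module Function P287Q.Lat

variable {L M : Type} [AddCommGroup L] [AddCommGroup M]

theorem sig_map {B : LinearMap.BilinForm ℤ L} {B' : LinearMap.BilinForm ℤ M} {p q : ℕ}
    (h : Sig B p q) (f : L →ₗ[ℤ] M) (hf : Injective f) (e : ∀ x y, B' (f x) (f y) = B x y)
    (hr : finrank ℤ M = p + q) : Sig B' p q := by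
  obtain ⟨-, P, N, hP, hN, h1, h2⟩ := h
  refine ⟨hr, P.map f, N.map f, ?_, ?_, ?_, ?_⟩
  · rw [← hP, (Submodule.equivMapOfInjective f hf P).finrank_eq]
  · rw [← hN, (Submodule.equivMapOfInjective f hf N).finrank_eq]
  · rintro _ ⟨x, hx, rfl⟩ h0
    rw [e]; exact h1 x hx fun k => h0 (by rw [k, map_zero])
  · rintro _ ⟨x, hx, rfl⟩ h0
    rw [e]; exact h2 x hx fun k => h0 (by rw [k, map_zero])

theorem sig_neg {B : LinearMap.BilinForm ℤ L} {p q : ℕ} (h : Sig B p q) : Sig (-B) q p := by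
  obtain ⟨h0, P, N, hP, hN, h1, h2⟩ := h
  exact ⟨by omega, N, P, hN, hP, fun x hx k => neg_pos.2 (h2 x hx k),
    fun x hx k => neg_neg_of_pos (h1 x hx k)⟩

theorem bij_map {B : LinearMap.BilinForm ℤ L} {B' : LinearMap.BilinForm ℤ M} (h : Bijective B)
    (f : L ≃ₗ[ℤ] M) (e : ∀ x y, B' (f x) (f y) = B x y) : Bijective B' := by
  refine ⟨(injective_iff_map_eq_zero _).2 fun x hx => ?_, fun φ => ?_⟩
  · obtain ⟨x, rfl⟩ := f.surjective x
    rw [(injective_iff_map_eq_zero _).1 h.1 x (LinearMap.ext fun y => by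
      rw [← e, hx]; rfl), map_zero]
  · obtain ⟨x, hx⟩ := h.2 (φ ∘ₗ f.toLinearMap)
    exact ⟨f x, LinearMap.ext (f.surjective.forall.2 fun y => by rw [e, hx]; rfl)⟩

/-- A positive definite lattice has finitely many vectors of bounded norm. -/
theorem finite_of_pos [Module.Finite ℤ L] {B : LinearMap.BilinForm ℤ L} (hs : ∀ x y, B x y = B y x)
    (hp : ∀ x, x ≠ 0 → 0 < B x x) (c : ℤ) : {x | B x x ≤ c}.Finite := by
  obtain ⟨n, v, hv⟩ := Module.Finite.exists_fin (R := ℤ) (M := L)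
  have h0 : ∀ x, 0 ≤ B x x := fun x => by
    by_cases k : x = 0
    · simp [k]
    · exact (hp x k).le
  refine Set.Finite.of_finite_image (f := fun x i => B x (v i))
    ((Set.Finite.pi' fun i => Set.finite_Icc (-(c + B (v i) (v i))) (c + B (v i) (v i))).subset ?_)
    fun x _ y _ e => ?_
  · rintro _ ⟨x, hx, rfl⟩ i
    have h1 := h0 (x + v i)
    have h2 := h0 (x - v i)
    have h3 := h0 x
    have h4 := h0 (v i)
    have h5 : B x x ≤ c := hx
    simp only [map_add, map_sub, LinearMap.add_apply, LinearMap.sub_apply, hs (v i) x] at h1 h2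
    exact ⟨show _ ≤ B x (v i) by omega, show B x (v i) ≤ _ by omega⟩
  · by_contra k
    refine (hp _ (sub_ne_zero.2 k)).ne' (LinearMap.congr_fun (LinearMap.ext_on_range hv
      (f := B (x - y)) (g := 0) fun i => ?_) _)
    rw [map_sub, LinearMap.sub_apply, sub_eq_zero.2 (congrFun e i)]; rfl

/-- The form of the model `L × ℤ`. -/
def mB (C : LinearMap.BilinForm ℤ L) (η : L) : LinearMap.BilinForm ℤ (L × ℤ) :=
  LinearMap.mk₂ ℤ (fun x y => (C x.1 η - x.2) * (C y.1 η - y.2) + x.2 * y.2 - C x.1 y.1)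
    (fun x x' y => by simp only [Prod.fst_add, Prod.snd_add, map_add, LinearMap.add_apply]; ring)
    (fun c x y => by
      simp only [Prod.smul_fst, Prod.smul_snd, map_smul, LinearMap.smul_apply, smul_eq_mul]; ring)
    (fun x y y' => by simp only [Prod.fst_add, Prod.snd_add, map_add, LinearMap.add_apply]; ring)
    (fun c x y => by
      simp only [Prod.smul_fst, Prod.smul_snd, map_smul, LinearMap.smul_apply, smul_eq_mul]; ring)

variable {C : LinearMap.BilinForm ℤ L} {η : L}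

theorem mB_apply (x y : L × ℤ) :
    mB C η x y = (C x.1 η - x.2) * (C y.1 η - y.2) + x.2 * y.2 - C x.1 y.1 := rfl

theorem mB_bij (hs : ∀ x y, C x y = C y x) (hb : Bijective C) (h3 : C η η = 3) :
    Bijective (mB C η) := by
  refine ⟨(injective_iff_map_eq_zero _).2 fun x hx => ?_, fun φ => ?_⟩
  · have h1 : _ = (0 : ℤ) := LinearMap.congr_fun hx (0, 1)
    have h2 : x.1 = (C x.1 η - x.2) • η := hb.1 (LinearMap.ext fun y => by
      have : _ = (0 : ℤ) := LinearMap.congr_fun hx (y, 0)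
      simp only [mB_apply] at this
      rw [map_smul, LinearMap.smul_apply, smul_eq_mul, hs η y]
      linear_combination -this)
    have h4 := congrArg (fun z => C z η) h2
    simp only [mB_apply, map_zero, LinearMap.zero_apply, map_smul, LinearMap.smul_apply,
      smul_eq_mul, h3] at h1 h4
    rw [show C x.1 η - x.2 = 0 by omega, zero_smul] at h2
    exact Prod.ext h2 (show x.2 = 0 by omega)
  · obtain ⟨a, ha⟩ := hb.2 (φ ∘ₗ LinearMap.inl ℤ L ℤ)
    refine ⟨((φ (0, 1) + C a η) • η - a, 2 * φ (0, 1) + C a η), LinearMap.ext fun y => ?_⟩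
    have h1 : φ y = C a y.1 + y.2 * φ (0, 1) := by
      rw [ha, ← smul_eq_mul, ← map_smul, LinearMap.comp_apply, ← map_add]
      simp
    simp only [mB_apply, map_sub, map_smul, LinearMap.sub_apply, LinearMap.smul_apply, smul_eq_mul,
      h3, h1, hs η y.1]
    ring

/-- The root lattice `A₂`. -/
def a2B : LinearMap.BilinForm ℤ (ℤ × ℤ) :=
  LinearMap.mk₂ ℤ (fun x y => 2 * x.1 * y.1 - x.1 * y.2 - x.2 * y.1 + 2 * x.2 * y.2)
    (fun x x' y => by simp only [Prod.fst_add, Prod.snd_add]; ring)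
    (fun c x y => by simp only [Prod.smul_fst, Prod.smul_snd, smul_eq_mul]; ring)
    (fun x y y' => by simp only [Prod.fst_add, Prod.snd_add]; ring)
    (fun c x y => by simp only [Prod.smul_fst, Prod.smul_snd, smul_eq_mul]; ring)

theorem a2B_sig : Sig a2B 2 0 := by
  refine ⟨by simp, ⊤, ⊥, by simp, by simp, fun x _ h0 => ?_, fun x hx h0 => (h0 hx).elim⟩
  change 0 < 2 * x.1 * x.1 - x.1 * x.2 - x.2 * x.1 + 2 * x.2 * x.2
  by_cases k : x.1 = 0
  · have : x.2 ≠ 0 := fun e => h0 (Prod.ext k e)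
    have := mul_self_pos.2 this
    rw [k]; linarith
  · nlinarith [mul_self_pos.2 k, mul_self_nonneg x.2, mul_self_nonneg (x.1 - x.2)]

theorem mB_sig [Module.Free ℤ L] [Module.Finite ℤ L] (hs : ∀ x y, C x y = C y x) (h3 : C η η = 3)
    (h : Sig C 21 2) : Sig (mB C η) 4 20 := by
  set W := Submodule.span ℤ {η}
  set U := LinearMap.BilinForm.orthogonal C W
  have hU : ∀ x ∈ U, C x η = 0 := fun x hx =>
    (hs _ _).trans (hx η (Submodule.mem_span_singleton_self η))
  have h0 : η ≠ 0 := fun e => by simp [e] at h3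
  have hW : finrank ℤ W = 1 := by
    rw [← (LinearEquiv.toSpanNonzeroSingleton ℤ L η h0).finrank_eq, finrank_self]
  have hn : ∀ x ∈ W, x ≠ 0 → (-C) x x < 0 := fun x hx k => by
    obtain ⟨t, rfl⟩ := Submodule.mem_span_singleton.1 hx
    have : t ≠ 0 := fun e => k (by rw [e, zero_smul])
    have := mul_self_pos.2 this
    simp only [LinearMap.neg_apply, map_smul, LinearMap.smul_apply, smul_eq_mul, h3]
    linarith
  have ho : ∀ x ∈ U, ∀ y ∈ W, (-C) x y = 0 := fun x hx y hy =>
    neg_eq_zero.2 ((hs _ _).trans (hx y hy))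
  have h1 := (Sig.restrict (-C) (fun x y => congrArg Neg.neg (hs x y)) (sig_neg h) U W ho hn
    (le_antisymm (Sgn_disj_le U W (Submodule.disjoint_def.2 fun x a b => by_contra fun k =>
      (hn x b k).ne (ho x a x b))) (finrank_orth C W))).2
  rw [hW] at h1
  let f : (ℤ × ℤ) × U →ₗ[ℤ] L × ℤ :=
    { toFun := fun z => (z.1.2 • η + z.2.1, 2 * z.1.2 - z.1.1)
      map_add' := fun a b => Prod.ext (by simp [add_smul]; abel) (by simp; ring)
      map_smul' := fun c a => Prod.ext (by simp [mul_smul]) (by simp; ring) }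
  refine sig_map (a2B_sig.sum h1) f ((injective_iff_map_eq_zero _).2 fun z hz => ?_) (fun x y => ?_)
    (by rw [finrank_prod, h.1, finrank_self])
  · have e1 : z.1.2 • η + z.2.1 = 0 := congrArg Prod.fst hz
    have e2 : 2 * z.1.2 - z.1.1 = 0 := congrArg Prod.snd hz
    have e3 := congrArg (fun z => C z η) e1
    simp only [map_add, map_smul, LinearMap.add_apply, LinearMap.smul_apply, smul_eq_mul, h3,
      hU _ z.2.2, map_zero, LinearMap.zero_apply] at e3
    rw [show z.1.2 = 0 by omega, zero_smul, zero_add] at e1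
    exact Prod.ext (Prod.ext (show z.1.1 = 0 by omega) (show z.1.2 = 0 by omega)) (Subtype.ext e1)
  · change (C (x.1.2 • η + x.2.1) η - (2 * x.1.2 - x.1.1)) * (C (y.1.2 • η + y.2.1) η -
      (2 * y.1.2 - y.1.1)) + (2 * x.1.2 - x.1.1) * (2 * y.1.2 - y.1.1) -
      C (x.1.2 • η + x.2.1) (y.1.2 • η + y.2.1) = 2 * x.1.1 * y.1.1 - x.1.1 * y.1.2 -
        x.1.2 * y.1.1 + 2 * x.1.2 * y.1.2 + -C x.2.1 y.2.1
    simp only [map_add, map_smul, LinearMap.add_apply, LinearMap.smul_apply, smul_eq_mul, h3,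
      hU _ x.2.2, hU _ y.2.2, hs η y.2.1]
    ring

end Vale.Agent.P287T.Cl
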