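import Vale.Agent.P287T.Cl.St
import Vale.Agent.P287T.Cl.Lat0
import Vale.Agent.P287T.Per.Top
import Vale.Agent.P287T.Per.Fil
import Vale.Agent.P287Q.Top.HRC

/-!
# The Mukai lattice of a smooth cubic fourfold, first half
-/

noncomputable section

namespace Vale.Agent.P287T.Cl

open Set Function Matrix Module P291Z P269 P269.Mono P287Q P287Q.Cub P287Q.Zc
  P287T.Cy P287T.Rr P287T.Top
open scoped ComplexConjugate

variable {F F' : S6}

theorem _root_.Vale.Agent.P287T.Per.Sm.hr (h : Per.Sm F) : Hb.HR h.ps (Per.TT F) (hyp F) :=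
  P287Q.Top.hrc F h.hom h.sm (pv h.hom h.sm)

theorem stForm : StForm := fun c => by
  have k := c.per.cubH
  obtain ⟨B, hB, hb⟩ := k.pz.form
  exact ⟨B, k.η, hB, rfl, (k.pz.lat 4).free, (k.pz.lat 4).fin, ⟨k.symm hB⟩, hb,
    k.sig hB c.per.hr, k.η_sq hB, k.even hB⟩

/-! ## The pairing -/

theorem mk_add_left (u v w : Cls F) : mk (u + v) w = mk u w + mk v w := by
  simp only [← mu_mv, map_add, LinearMap.add_apply]

theorem mk_add_right (u v w : Cls F) : mk u (v + w) = mk u v + mk u w := by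
  simp only [← mu_mv, map_add]

theorem mk_zsmul_left (k : ℤ) (v w : Cls F) : mk (k • v) w = k * mk v w := by
  rw [← mu_mv, ← mu_mv, map_zsmul, map_zsmul, LinearMap.smul_apply, zsmul_eq_mul]

theorem mk_zsmul_right (k : ℤ) (v w : Cls F) : mk v (k • w) = k * mk v w := by
  rw [← mu_mv, ← mu_mv, map_zsmul, map_zsmul, zsmul_eq_mul]

theorem eis_dot (u u' : Fin 3 → ℤ) : (2 / 3 * ((conj (eis u) * eis u').re : ℂ)) =
    (u ⬝ᵥ u' : ℤ) - ((u 0 + u 1 + u 2 : ℤ) : ℂ) * (u' 0 + u' 1 + u' 2 : ℤ) / 3 := by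
  rw [← al_dot]
  simp only [dotProduct, Fin.sum_univ_three, al_eis]
  push_cast
  ring

theorem mk_l1 {v : Cls F} {p1 p2 : ℤ} (h : Pq v.1 p1 p2) : mk (l1 F) v = p1 := by
  obtain ⟨u, e, rfl, rfl⟩ := h
  rw [Top.mk, l1, e, eis_dot]
  simp [dotProduct, Fin.sum_univ_three]
  ring

theorem mk_l2 {v : Cls F} {p1 p2 : ℤ} (h : Pq v.1 p1 p2) : mk (l2 F) v = p2 := by
  obtain ⟨u, e, rfl, rfl⟩ := h
  rw [Top.mk, l2, e, eis_dot]
  simp [dotProduct, Fin.sum_univ_three]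
  ring

theorem pq_eq {a : ℂ} {p1 p2 : ℤ} (h : Pq a p1 p2) : a = p1 + p2 + p2 * om := by
  obtain ⟨u, rfl, rfl, rfl⟩ := h
  rw [eis, om_sq]
  push_cast
  ring

theorem pq_normSq {a : ℂ} {p1 p2 : ℤ} (h : Pq a p1 p2) :
    Complex.normSq a = (p1 ^ 2 + p1 * p2 + p2 ^ 2 : ℤ) := by
  rw [pq_eq h]
  simp [Complex.normSq_apply, om]
  linear_combination (p2 ^ 2 / 4 : ℝ) * sq3

theorem pq_im {a a' : ℂ} {p1 p2 q1 q2 : ℤ} (h : Pq a p1 p2) (h' : Pq a' q1 q2) :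
    (conj a * a').im = √3 / 2 * (p1 * q2 - p2 * q1 : ℤ) := by
  rw [pq_eq h, pq_eq h']
  simp [om]
  ring

theorem exists_pq {v : Cls F} (hv : v ∈ LT F) : ∃ p1 p2, Pq v.1 p1 p2 := by
  obtain ⟨x, -, u, -, rfl⟩ := hv
  exact ⟨_, _, u, rfl, rfl, rfl⟩

theorem muk_l1 : l1 F ∈ LT F := ⟨0, zero_mem _, ![1, -1, 0], by simp, by rw [pr_zero]; rfl⟩

theorem muk_l2 : l2 F ∈ LT F := ⟨0, zero_mem _, ![0, 1, -1], by simp, by rw [pr_zero]; rfl⟩

theorem muk_rot (v : Cls F) (hv : v ∈ LT F) : (om * v.1, v.2) ∈ LT F := by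
  obtain ⟨x, hx, u, hu, rfl⟩ := hv
  refine ⟨x, hx, ![u 2, u 0, u 1], by rw [← hu]; simp; ring, Prod.ext ?_ rfl⟩
  simp [eis]
  linear_combination (u 2 : ℂ) * om_cube

section cu

variable (c : Cu F)
include c

theorem J_h4 : JF F (hyp F ^ 2 * hyp F ^ 2) = 3 := by
  rw [← pow_add]; exact c.per.cubH.deg

theorem h2_deg : H.IsDeg 4 (hyp F ^ 2) := isDeg_pow c.per.cubH.lf.deg 2

theorem J_symm {a : H (XF F)} (ha : H.IsDeg 4 a) (b : H (XF F)) : JF F (b * a) = JF F (a * b) :=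
  J_comm (Y := c.per.ps) (k := 2) ha b

theorem J_cj (a : H (XF F)) : JF F (cj a) = conj (JF F a) := c.per.cubH.re a

theorem cj_h : cj (hyp F) = hyp F := cj_of_Lam c.per.cubH.int

theorem pr_deg {x : H (XF F)} (hx : H.IsDeg 4 x) : H.IsDeg 4 (pr F x) :=
  (H.deg _ 4).sub_mem hx ((H.deg _ 4).smul_mem _ (h2_deg c))

theorem J_pr_h (x : H (XF F)) : JF F (pr F x * hyp F ^ 2) = 0 := by
  rw [pr, sub_mul, smul_mul_assoc, map_sub, map_smul, J_h4 c, smul_eq_mul]; ring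

theorem prim_iff {x : H (XF F)} (hx : H.IsDeg 4 x) : hyp F * x = 0 ↔ JF F (x * hyp F ^ 2) = 0 := by
  rw [J_symm c (h2_deg c)]; exact Per.fil_prim_iff c.per.cubH hx

theorem pr_prim {x : H (XF F)} (hx : H.IsDeg 4 x) : hyp F * pr F x = 0 :=
  (prim_iff c (pr_deg c hx)).2 (J_pr_h c x)

theorem pr_of_prim {x : H (XF F)} (hx : H.IsDeg 4 x) (h : hyp F * x = 0) : pr F x = x := by
  rw [pr, (prim_iff c hx).1 h, zero_div, zero_smul, sub_zero]

theorem J_pr_pr (x y : H (XF F)) : JF F (pr F x * pr F y) =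
    JF F (x * y) - JF F (x * hyp F ^ 2) * JF F (y * hyp F ^ 2) / 3 := by
  rw [pr.eq_1 F y, mul_sub, mul_smul_comm, map_sub, map_smul, J_pr_h c, smul_zero, sub_zero, pr,
    sub_mul, smul_mul_assoc, map_sub, map_smul, ← J_symm c (h2_deg c), smul_eq_mul]
  ring

theorem muk_prim (v : Cls F) (hv : v ∈ LT F) :
    H.IsDeg 4 v.2 ∧ hyp F * v.2 = 0 ∧ cj v.2 = v.2 := by
  obtain ⟨x, hx, u, hu, rfl⟩ := hv
  refine ⟨pr_deg c hx.2, pr_prim c hx.2, ?_⟩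
  change cj (pr F x) = pr F x
  rw [pr, map_sub, LinearMap.map_smulₛₗ, cj_of_Lam hx.1, sq, cj_mul, cj_h c, ← sq, ← hu,
    map_div₀, map_intCast, map_ofNat]

theorem muk_model (u u' : Fin 3 → ℤ) (x x' : H (XF F))
    (hu : ((u 0 + u 1 + u 2 : ℤ) : ℂ) = JF F (x * hyp F ^ 2))
    (hu' : ((u' 0 + u' 1 + u' 2 : ℤ) : ℂ) = JF F (x' * hyp F ^ 2)) :
    mk (F := F) (eis u, pr F x) (eis u', pr F x') = (u ⬝ᵥ u' : ℤ) - JF F (x * x') := by
  rw [Top.mk, eis_dot, J_pr_pr c, ← hu, ← hu']; ring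

theorem mk_symm {v w : Cls F} (hw : H.IsDeg 4 w.2) : mk v w = mk w v := by
  rw [Top.mk, Top.mk, J_symm c hw, ← Complex.conj_re, map_mul, Complex.conj_conj, mul_comm v.1]

theorem mk_int (v w : LT F) : ∃ n : ℤ, (n : ℂ) = mk v.1 w.1 ∧ (v = w → Even n) := by
  obtain ⟨B, η, hB, hη, -, -, -, -, -, -, he⟩ := stForm c
  obtain ⟨_, x, hx, u, hu, rfl⟩ := v
  obtain ⟨x', hx', u', hu', e⟩ := w.2
  by_cases k : (⟨_, x, hx, u, hu, rfl⟩ : LT F) = w
  · subst k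
    refine ⟨u ⬝ᵥ u - B ⟨x, hx⟩ ⟨x, hx⟩, by rw [muk_model c u u x x hu hu, Int.cast_sub, hB],
      fun _ => ?_⟩
    have h1 : u 0 + u 1 + u 2 = B ⟨x, hx⟩ η := by
      rw [← hη, ← hB ⟨x, hx⟩] at hu; exact_mod_cast hu
    have h2 := he ⟨x, hx⟩
    have h3 := fun i => Int.even_mul_pred_self (u i)
    rw [show u ⬝ᵥ u - B ⟨x, hx⟩ ⟨x, hx⟩ = u 0 * (u 0 - 1) + u 1 * (u 1 - 1) + u 2 * (u 2 - 1) -
      (B ⟨x, hx⟩ ⟨x, hx⟩ - B ⟨x, hx⟩ η) by
        rw [← h1, dotProduct, Fin.sum_univ_three]; ring]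
    exact (((h3 0).add (h3 1)).add (h3 2)).sub h2
  · exact ⟨u ⬝ᵥ u' - B ⟨x, hx⟩ ⟨x', hx'⟩, by
      rw [e, muk_model c u u' x x' hu hu', Int.cast_sub, hB], fun e => (k e).elim⟩

omit c in
/-- **The integral Mukai pairing.** -/
def bL (c : Cu F) : LinearMap.BilinForm ℤ (LT F) :=
  LinearMap.mk₂ ℤ (fun v w => (mk_int c v w).choose)
    (fun u v w => Int.cast_injective (α := ℂ) (by
      simp only [Int.cast_add, (mk_int c _ _).choose_spec.1]; exact mk_add_left _ _ _))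
    (fun k v w => Int.cast_injective (α := ℂ) (by
      simp only [smul_eq_mul, Int.cast_mul, (mk_int c _ _).choose_spec.1]
      exact mk_zsmul_left _ _ _))
    (fun u v w => Int.cast_injective (α := ℂ) (by
      simp only [Int.cast_add, (mk_int c _ _).choose_spec.1]; exact mk_add_right _ _ _))
    (fun k v w => Int.cast_injective (α := ℂ) (by
      simp only [smul_eq_mul, Int.cast_mul, (mk_int c _ _).choose_spec.1]
      exact mk_zsmul_right _ _ _))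

theorem bL_cast (v w : LT F) : (bL c v w : ℂ) = mk v.1 w.1 := (mk_int c v w).choose_spec.1

theorem bL_even (v : LT F) : Even (bL c v v) := (mk_int c v v).choose_spec.2 rfl

theorem bL_symm (v w : LT F) : bL c v w = bL c w v := Int.cast_injective (α := ℂ) (by
  rw [bL_cast, bL_cast, mk_symm c (muk_prim c _ w.2).1])

omit c in
/-- The integral Mukai pairing as a biadditive map. -/
def bZ (c : Cu F) : LT F →+ LT F →+ ℤ :=
  AddMonoidHom.mk' (fun v => (bL c v).toAddMonoidHom) fun _ _ => by rw [map_add]; rfl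

theorem bZ_eq (v w : LT F) : bZ c v w = bL c v w := rfl

theorem muk_bz : ∃ b : LT F →+ LT F →+ ℤ, (∀ v w, (b v w : ℂ) = mk v.1 w.1) ∧
    (∀ v w, b v w = b w v) ∧ ∀ v, Even (b v v) := ⟨bZ c, bL_cast c, bL_symm c, bL_even c⟩

theorem J_real {x y : H (XF F)} (hx : cj x = x) (hy : cj y = y) :
    ((JF F (x * y)).re : ℂ) = JF F (x * y) :=
  Complex.conj_eq_iff_re.1 (by rw [← J_cj c, cj_mul, hx, hy])

theorem J_pos {x : H (XF F)} (hx : x ∈ Per.TT F 2 2) (hc : cj x = x) (h0 : x ≠ 0) :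
    0 < (JF F (x * x)).re := by
  have k := c.per.cubH
  have := S_pos k.hg c.per.hr k.n k.lf k.h11 (cj_h c) k.deg hx h0
  rwa [hc] at this

theorem muk_pos (v : Cls F) (hv : v ∈ LT F) (h : Hdg v) (h0 : v.2 ≠ 0) :
    ∃ t : ℝ, 0 < t ∧ JF F (v.2 * v.2) = t :=
  have k := (muk_prim c v hv).2.2
  ⟨_, J_pos c h k h0, (J_real c k k).symm⟩

theorem three_mem {v : Cls F} (hv : v ∈ LT F) : (3 : ℤ) • v.2 ∈ Lk (XF F) 4 := by
  obtain ⟨x, hx, u, hu, rfl⟩ := hv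
  have : (3 : ℤ) • pr F x = (3 : ℤ) • x - (u 0 + u 1 + u 2) • hyp F ^ 2 := by
    rw [pr, ← hu, smul_sub, ← Int.cast_smul_eq_zsmul ℂ 3 (_ • _), smul_smul,
      ← Int.cast_smul_eq_zsmul ℂ _ (hyp F ^ 2)]
    congr 2
    push_cast
    ring
  exact this ▸ sub_mem (Submodule.smul_mem _ _ hx) (Submodule.smul_mem _ _ c.per.cubH.η.2)

theorem muk_bdd (b : ℝ) :
    {v | v ∈ LT F ∧ Hdg v ∧ Complex.normSq v.1 ≤ b ∧ (JF F (v.2 * v.2)).re ≤ b}.Finite := by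
  obtain ⟨B, η, hB, -, _, _, hs, -⟩ := stForm c
  let K : Submodule ℤ (Lk (XF F) 4) :=
    ((Per.TT F 2 2).restrictScalars ℤ).comap (Lk (XF F) 4).subtype
  have h1 := finite_of_pos (B := B.restrict K) (fun x y => hs.eq x.1 y.1)
    (fun x hx => c.per.cubH.pos hB c.per.hr x.1 x.2 fun e => hx (Subtype.ext e)) ⌈9 * b⌉
  have h2 := finite_of_pos (B := a2B) (fun x y => by
      change 2 * x.1 * y.1 - x.1 * y.2 - x.2 * y.1 + 2 * x.2 * y.2 =
        2 * y.1 * x.1 - y.1 * x.2 - y.2 * x.1 + 2 * y.2 * x.2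
      ring) (fun x hx => by
      change 0 < 2 * x.1 * x.1 - x.1 * x.2 - x.2 * x.1 + 2 * x.2 * x.2
      by_cases k : x.1 = 0
      · have := mul_self_pos.2 (show x.2 ≠ 0 from fun e => hx (Prod.ext k e))
        rw [k]; linarith
      · nlinarith [mul_self_pos.2 k, mul_self_nonneg x.2, mul_self_nonneg (x.1 - x.2)]) ⌈2 * b⌉
  refine ((h2.image fun x => (x.1 + x.2 * om : ℂ)).prod
    (h1.image fun x => (3⁻¹ : ℂ) • x.1.1)).subset fun v ⟨k1, k2, k3, k4⟩ => ⟨?_, ?_⟩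
  · obtain ⟨p1, p2, h⟩ := exists_pq k1
    refine ⟨(p1 + p2, p2), ?_, by rw [pq_eq h]; simp⟩
    rw [pq_normSq h] at k3
    refine Int.cast_le (R := ℝ).1 (le_trans ?_ (Int.le_ceil _))
    change ((2 * (p1 + p2) * (p1 + p2) - (p1 + p2) * p2 - p2 * (p1 + p2) + 2 * p2 * p2 : ℤ) : ℝ) ≤ _
    push_cast at k3 ⊢
    linarith
  · refine ⟨⟨⟨_, three_mem c k1⟩, ((Per.TT F 2 2).restrictScalars ℤ).smul_mem 3 k2⟩, ?_, ?_⟩
    · refine Int.cast_le (R := ℝ).1 (le_trans ?_ (Int.le_ceil _))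
      have := congrArg Complex.re (hB ⟨_, three_mem c k1⟩ ⟨_, three_mem c k1⟩)
      rw [smul_mul_assoc, mul_smul_comm, map_zsmul, map_zsmul, zsmul_eq_mul (JF F _),
        zsmul_eq_mul (_ * JF F _), Complex.intCast_re] at this
      change (B ⟨_, three_mem c k1⟩ ⟨_, three_mem c k1⟩ : ℝ) ≤ _
      rw [this]
      simp
      linarith
    · change (3⁻¹ : ℂ) • (3 : ℤ) • v.2 = v.2
      rw [← Int.cast_smul_eq_zsmul ℂ, smul_smul]
      simp

theorem muk_le (x : MV F) (hx : x ∈ LM F) : x ∈ VV F := by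
  obtain ⟨v, hv, rfl⟩ := hx
  exact ⟨al_sum _, (muk_prim c v hv).1, (muk_prim c v hv).2.1⟩

theorem muk_symm (x : MV F) (_ : x ∈ VV F) (y : MV F) (hy : y ∈ VV F) : mu F x y = mu F y x := by
  rw [mu_apply, mu_apply, dotProduct_comm, J_symm c hy.2.1]

end cu

/-! ## Transport -/

/-- Transport as an additive map. -/
def trA (φ : C(XF F, XF F')) : Cls F' →+ Cls F :=
  AddMonoidHom.mk' (tr φ) fun _ _ => Prod.ext rfl (map_add (H.map φ) _ _)

theorem tr_l1 (φ : C(XF F, XF F')) : tr φ (l1 F') = l1 F := Prod.ext rfl (map_zero (H.map φ))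

theorem tr_l2 (φ : C(XF F, XF F')) : tr φ (l2 F') = l2 F := Prod.ext rfl (map_zero (H.map φ))

theorem tr_In1 {φ : C(XF F, XF F')} (h : Injective (tr φ)) (v w : Cls F') :
    In1 (tr φ v) (tr φ w) ↔ In1 v w := by
  refine exists₃_congr fun r1 r2 j => ?_
  rw [← h.eq_iff, ← tr_l1 φ, ← tr_l2 φ]
  change _ ↔ _ = trA φ _
  simp only [map_add, map_zsmul]
  rfl

theorem tr_In2 {φ : C(XF F, XF F')} (h : Injective (tr φ)) (o n w : Cls F') :
    In2 (tr φ o) (tr φ n) (tr φ w) ↔ In2 o n w := by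
  refine exists₄_congr fun r1 r2 j z => ?_
  rw [← h.eq_iff, ← tr_l1 φ, ← tr_l2 φ]
  change _ ↔ _ = trA φ _
  simp only [map_add, map_zsmul]
  rfl

theorem stTr : StTr := fun {F F' Φ} c c' e => by
  obtain ⟨h1, h2, h3, -, h5⟩ := Per.stTop c.per c'.per e
  have h2 : ∀ y, JF F (H.map e.φ y) = JF F' y := h2
  have hb : Bijective (tr e.φ) := Prod.map_bijective.2 ⟨bijective_id, h3⟩
  have hh : ∀ x, JF F (H.map e.φ x * hyp F ^ 2) = JF F' (x * hyp F' ^ 2) := fun x => by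
    rw [← h1, ← map_pow, ← map_mul, h2]
  have hp : ∀ x, H.map e.φ (pr F' x) = pr F (H.map e.φ x) := fun x => by
    rw [pr, pr, map_sub, H.map_smulC, map_pow, h1, hh]
  have hL : ∀ v, tr e.φ v ∈ LT F ↔ v ∈ LT F' := fun v => by
    refine ⟨fun ⟨x, hx, u, hu, k⟩ => ?_, fun ⟨x, hx, u, hu, k⟩ =>
      ⟨_, (h5 x).2 hx, u, by rw [hh, hu], by rw [k, ← hp]; rfl⟩⟩
    obtain ⟨x, rfl⟩ := h3.2 x
    exact ⟨x, (h5 x).1 hx, u, by rw [← hh, hu], hb.1 (by rw [k, ← hp]; rfl)⟩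
  have hm : ∀ v w, mk (tr e.φ v) (tr e.φ w) = mk v w := fun v w => by
    rw [Top.mk, Top.mk, ← h2, map_mul (H.map e.φ)]; rfl
  have hz : ∀ (k : ℤ) w, k • tr e.φ w = tr e.φ (k • w) := fun k w => (map_zsmul (trA e.φ) k w).symm
  refine ⟨hb, hL, hm, fun v => ⟨fun n => ⟨(hL v).1 n.mem, hm v v ▸ n.iso, n.prim,
    fun w hw k hk a => (tr_In1 hb.1 v w).1 (n.sat _ ((hL w).2 hw) k hk ?_), n.big⟩,
    fun n => ⟨(hL v).2 n.mem, (hm v v).trans n.iso, n.prim, hb.2.forall.2 fun w hw k hk a =>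
      (tr_In1 hb.1 v w).2 (n.sat w ((hL w).1 hw) k hk ?_), n.big⟩⟩⟩
  · rwa [hz, tr_In1 hb.1]
  · rwa [hz, tr_In1 hb.1] at a

end Vale.Agent.P287T.Cl
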