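import Vale.Agent.P287T.Cl.Lat1
import Vale.Agent.P287T.Ch.Uu

/-!
# The Mukai lattice of a smooth cubic fourfold is even unimodular of signature `(4, 20)`
-/

set_option linter.style.haveILetI false

noncomputable section

namespace Vale.Agent.P287T.Cl

open Set Function Matrix Module P291Z P269 P269.Mono P287Q P287Q.Cub P287Q.Zc
  P287T.Cy P287T.Rr P287T.Top
open scoped ComplexConjugate

section abs

variable {Λ : Type} [AddCommGroup Λ] {B' : Λ →+ Λ →+ ℤ} {l1 l2 v f w : Λ}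

theorem lat_tf (L : Ch.Lat B' l1 l2) {k : ℤ} (hk : k ≠ 0) (h : k • w = 0) : w = 0 :=
  L.nd w fun y => by
    have := congrArg (fun z => B' z y) h
    simp only [map_zsmul, AddMonoidHom.smul_apply, smul_eq_mul, map_zero,
      AddMonoidHom.zero_apply] at this
    exact (mul_eq_zero.1 this).resolve_left hk

theorem lat_a2_sat (L : Ch.Lat B' l1 l2) {k r1 r2 : ℤ} (hk : k ≠ 0)
    (h : k • w = r1 • l1 + r2 • l2) : ∃ s1 s2 : ℤ, w = s1 • l1 + s2 • l2 := by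
  have h1 := congrArg (B' l1) h
  have h2 := congrArg (B' l2) h
  have h3 := congrArg (fun z => B' z w) h
  simp only [map_zsmul, map_add, AddMonoidHom.smul_apply, AddMonoidHom.add_apply, smul_eq_mul,
    L.h11, L.h22, L.h12, L.symm l2 l1] at h1 h2 h3
  have h4 : 3 * B' w w = 2 * (B' l1 w - B' l2 w) ^ 2 + 3 * (2 * B' l1 w * B' l2 w) :=
    mul_left_cancel₀ hk (by
      linear_combination 3 * h3 - (2 * B' l1 w + B' l2 w) * h1 - (B' l1 w + 2 * B' l2 w) * h2)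
  obtain ⟨t, ht⟩ : (3 : ℤ) ∣ B' l1 w - B' l2 w :=
    Int.prime_three.dvd_of_dvd_pow (n := 2) (by omega)
  refine ⟨B' l2 w + 2 * t, B' l2 w + t, sub_eq_zero.1 (lat_tf L hk ?_)⟩
  have e1 : r1 = k * (B' l2 w + 2 * t) := mul_left_cancel₀ (three_ne_zero (α := ℤ)) (by
    linear_combination -2 * h1 - h2 + 2 * k * ht)
  have e2 : r2 = k * (B' l2 w + t) := mul_left_cancel₀ (three_ne_zero (α := ℤ)) (by
    linear_combination -h1 - 2 * h2 + k * ht)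
  rw [smul_sub, h, e1, e2, smul_add, mul_smul, mul_smul, sub_self]

theorem lat_sat_of_dual (L : Ch.Lat B' l1 l2) (hf : Ch.Pr B' l1 l2 f) (h1 : B' f v = 1)
    {k r1 r2 j : ℤ} (hk : k ≠ 0) (h : k • w = r1 • l1 + r2 • l2 + j • v) :
    ∃ s1 s2 i : ℤ, w = s1 • l1 + s2 • l2 + i • v := by
  have h2 := congrArg (B' f) h
  simp only [map_zsmul, map_add, smul_eq_mul, L.symm f l1, L.symm f l2, hf.1, hf.2, h1] at h2
  obtain ⟨s1, s2, e⟩ := lat_a2_sat L (w := w - B' f w • v) (r1 := r1) (r2 := r2) hk (by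
    rw [smul_sub, h, smul_smul, show k * B' f w = j by omega, add_sub_cancel_right])
  exact ⟨s1, s2, B' f w, by rw [← e, sub_add_cancel]⟩

theorem lat_dual_of_sat [Module.Finite ℤ Λ] (L : Ch.Lat B' l1 l2) {B : LinearMap.BilinForm ℤ Λ}
    (hB : ∀ x y, B' x y = B x y) (hu : Bijective B) (hv : B' v v = 0)
    (hc : IsCoprime (B' l1 v) (B' l2 v))
    (hs : ∀ (w : Λ) (k : ℤ), k ≠ 0 → (∃ r1 r2 j : ℤ, k • w = r1 • l1 + r2 • l2 + j • v) →
      ∃ r1 r2 j : ℤ, w = r1 • l1 + r2 • l2 + j • v) : ∃ f, Ch.Pr B' l1 l2 f ∧ B' f v = 1 := by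
  let M : Submodule ℤ Λ := Submodule.span ℤ {l1, l2, v}
  have hM : ∀ w, w ∈ M ↔ ∃ r1 r2 j : ℤ, w = r1 • l1 + r2 • l2 + j • v := fun w =>
    Submodule.mem_span_triple.trans (exists₃_congr fun _ _ _ => eq_comm)
  haveI : Module.IsTorsionFree ℤ (Λ ⧸ M) := Module.IsTorsionFree.of_smul_eq_zero fun k x h => by
    obtain ⟨x, rfl⟩ := M.mkQ_surjective x
    refine or_iff_not_imp_left.2 fun hk => (Submodule.Quotient.mk_eq_zero M).2 ?_
    exact (hM x).2 (hs x k hk ((hM _).1 ((Submodule.Quotient.mk_eq_zero M).1 h)))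
  obtain ⟨s, hs'⟩ := Module.projective_lifting_property M.mkQ LinearMap.id M.mkQ_surjective
  let r : Λ →ₗ[ℤ] Λ := LinearMap.id - s ∘ₗ M.mkQ
  have r1 : ∀ w, r w ∈ M := fun w => (Submodule.Quotient.mk_eq_zero M).1 (by
    change M.mkQ (w - s (M.mkQ w)) = 0
    rw [map_sub, show M.mkQ (s (M.mkQ w)) = M.mkQ w from LinearMap.congr_fun hs' _, sub_self])
  have r2 : ∀ w ∈ M, r w = w := fun w hw => by
    change w - s (M.mkQ w) = w
    rw [show M.mkQ w = 0 from (Submodule.Quotient.mk_eq_zero M).2 hw, map_zero, sub_zero]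
  let θ : Λ →+ ℤ := B' ((2 * B' l1 v + B' l2 v) • l1 + (B' l1 v + 2 * B' l2 v) • l2 - (3 : ℤ) • v)
  set D := Sw.ip3 (B' l1 v) (B' l2 v) (B' l1 v) (B' l2 v) with hD
  have hθ : ∀ a b j : ℤ, θ (a • l1 + b • l2 + j • v) = D * j := fun a b j => by
    simp only [θ, map_add, map_sub, map_zsmul, AddMonoidHom.add_apply, AddMonoidHom.sub_apply,
      AddMonoidHom.smul_apply, smul_eq_mul, L.h11, L.h22, L.h12, L.symm l2 l1, L.symm v l1,
      L.symm v l2, hv, hD, Sw.ip3]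
    ring
  have D0 : D ≠ 0 := fun e => hc.ne_zero_or_ne_zero.elim
    (fun k => by
      rw [hD, Sw.ip3] at e
      nlinarith [mul_self_pos.2 k, mul_self_nonneg (B' l2 v), mul_self_nonneg (B' l1 v + B' l2 v)])
    fun k => by
      rw [hD, Sw.ip3] at e
      nlinarith [mul_self_pos.2 k, mul_self_nonneg (B' l1 v), mul_self_nonneg (B' l1 v + B' l2 v)]
  have hd : ∀ w, D ∣ θ (r w) := fun w => by
    obtain ⟨a, b, j, e⟩ := (hM _).1 (r1 w)
    exact ⟨j, by rw [e, hθ]⟩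
  obtain ⟨f, hf⟩ := hu.2 (AddMonoidHom.mk' (fun w => θ (r w) / D) fun a b => by
    rw [map_add, map_add, Int.add_ediv_of_dvd_left (hd a)]).toIntLinearMap
  have h1 : ∀ a b j : ℤ, B' f (a • l1 + b • l2 + j • v) = j := fun a b j => by
    rw [hB, hf]
    change θ (r _) / D = j
    rw [r2 _ ((hM _).2 ⟨a, b, j, rfl⟩), hθ, Int.mul_ediv_cancel_left _ D0]
  exact ⟨f, ⟨by simpa [L.symm f] using h1 1 0 0, by simpa [L.symm f] using h1 0 1 0⟩,
    by simpa using h1 0 0 1⟩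

end abs

variable {F : S6} (c : Cu F)

/-- The first root. -/
def L1 (F : S6) : LT F := ⟨l1 F, muk_l1⟩

/-- The second root. -/
def L2 (F : S6) : LT F := ⟨l2 F, muk_l2⟩

include c

section model

variable {B : LinearMap.BilinForm ℤ (Lk (XF F) 4)} {η : Lk (XF F) 4}
  (hB : ∀ x y, (B x y : ℂ) = JF F (x.1 * y.1)) (hη : η.1 = hyp F ^ 2)
include hB hη

omit c in
theorem eLT_sum (x : Lk (XF F) 4) (u : Fin 3 → ℤ) :
    ((u 0 + u 1 + u 2 : ℤ) : ℂ) = JF F (x.1 * hyp F ^ 2) ↔ u 0 + u 1 + u 2 = B x η := by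
  rw [← hη, ← hB, Int.cast_inj]

omit c in
theorem eLT_map : ∃ f : (Lk (XF F) 4 × ℤ) →ₗ[ℤ] LT F,
    ∀ z, (f z).1 = (eis ![B z.1 η - z.2, z.2, 0], pr F z.1.1) := by
  have h1 : ∀ z : Lk (XF F) 4 × ℤ, ((eis ![B z.1 η - z.2, z.2, 0], pr F z.1.1) : Cls F) ∈ LT F :=
    fun z => ⟨z.1.1, z.1.2, _, (eLT_sum hB hη _ _).2 (by simp), rfl⟩
  have h2 : ∀ a b a' b' : ℤ, eis ![a + a' - (b + b'), b + b', 0] =
      eis ![a - b, b, 0] + eis ![a' - b', b', 0] := fun a b a' b' => by simp [eis]; ring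
  let g : Lk (XF F) 4 × ℤ →+ Cls F :=
    AddMonoidHom.mk' (fun z => (eis ![B z.1 η - z.2, z.2, 0], pr F z.1.1)) fun a b => by
      rw [Prod.fst_add, Prod.snd_add, map_add, LinearMap.add_apply, h2, Submodule.coe_add, pr_add]
      rfl
  exact ⟨(g.codRestrict (LT F) h1).toIntLinearMap, fun _ => rfl⟩

variable {f : (Lk (XF F) 4 × ℤ) →ₗ[ℤ] LT F}
  (hf : ∀ z, (f z).1 = (eis ![B z.1 η - z.2, z.2, 0], pr F z.1.1))
include hf

theorem eLT_form (x y : Lk (XF F) 4 × ℤ) : bL c (f x) (f y) = mB B η x y :=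
  Int.cast_injective (α := ℂ) (by
    rw [bL_cast, hf, hf, muk_model c _ _ _ _ ((eLT_sum hB hη _ _).2 (by simp))
      ((eLT_sum hB hη _ _).2 (by simp)), ← hB, mB_apply]
    simp [dotProduct, Fin.sum_univ_three])

theorem eLT_surj (h3 : B η η = 3) : Surjective f := by
  rintro ⟨_, x, hx, u, k, rfl⟩
  have k1 := (eLT_sum hB hη ⟨x, hx⟩ u).1 k
  refine ⟨(⟨x, hx⟩ - u 2 • η, u 1 - u 2), Subtype.ext ((hf _).trans (Prod.ext ?_ ?_))⟩
  · change eis ![B (⟨x, hx⟩ - u 2 • η) η - (u 1 - u 2), u 1 - u 2, 0] = eis u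
    rw [map_sub, map_smul, LinearMap.sub_apply, LinearMap.smul_apply, h3, ← k1]
    simp [eis, om_sq]
    ring
  · change pr F (x - u 2 • η.1) = pr F x
    rw [hη, ← Int.cast_smul_eq_zsmul ℂ, pr, pr, sub_mul, smul_mul_assoc, map_sub, map_smul, J_h4 c,
      smul_eq_mul, sub_div, sub_smul, mul_div_cancel_right₀ _ three_ne_zero]
    abel

end model

theorem exists_eLT : ∃ (B : LinearMap.BilinForm ℤ (Lk (XF F) 4)) (η : Lk (XF F) 4)
    (e : (Lk (XF F) 4 × ℤ) ≃ₗ[ℤ] LT F), (∀ x y, bL c (e x) (e y) = mB B η x y) ∧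
      Bijective (mB B η) ∧ Lat.Sig (mB B η) 4 20 ∧ ∀ x, (e x).1.2 = pr F x.1.1 := by
  obtain ⟨B, η, hB, hη, _, _, hs, hb, hg, h3, -⟩ := stForm c
  obtain ⟨f, hf⟩ := eLT_map hB hη
  have h1 := eLT_form c hB hη hf
  have h2 := mB_bij hs.eq hb h3
  have h4 : Injective f := (injective_iff_map_eq_zero _).2 fun x hx =>
    (injective_iff_map_eq_zero _).1 h2.1 x (LinearMap.ext fun y => by
      rw [← h1, hx, map_zero, LinearMap.zero_apply, LinearMap.zero_apply])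
  exact ⟨B, η, LinearEquiv.ofBijective f ⟨h4, eLT_surj c hB hη hf h3⟩, h1, h2,
    mB_sig hs.eq h3 hg, fun x => congrArg Prod.snd (hf x)⟩

theorem LT_free : Module.Free ℤ (LT F) := by
  obtain ⟨-, -, e, -⟩ := exists_eLT c
  haveI : Module.Free ℤ (Lk (XF F) 4) := (c.per.cubH.pz.lat 4).free
  exact Module.Free.of_equiv e

theorem LT_fin : Module.Finite ℤ (LT F) := by
  obtain ⟨-, -, e, -⟩ := exists_eLT c
  haveI : Module.Finite ℤ (Lk (XF F) 4) := (c.per.cubH.pz.lat 4).fin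
  exact Module.Finite.equiv e

theorem LT_rank : finrank ℤ (LT F) = 24 := by
  obtain ⟨_, _, e, -, -, h, -⟩ := exists_eLT c
  rw [← e.finrank_eq, h.1]

theorem bL_bij : Bijective (bL c) := by
  obtain ⟨_, _, e, h1, h2, -⟩ := exists_eLT c
  exact bij_map h2 e h1

theorem bL_sig : Lat.Sig (bL c) 4 20 := by
  obtain ⟨_, _, e, h1, -, h, -⟩ := exists_eLT c
  exact sig_map h e.toLinearMap e.injective h1 (LT_rank c)

theorem bZ_cast (v w : LT F) : (bZ c v w : ℂ) = mk v.1 w.1 := bL_cast c v w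

theorem bZ_l1 {v : LT F} {p1 p2 : ℤ} (h : Pq v.1.1 p1 p2) : bZ c (L1 F) v = p1 :=
  Int.cast_injective (α := ℂ) ((bZ_cast c _ _).trans (mk_l1 h))

theorem bZ_l2 {v : LT F} {p1 p2 : ℤ} (h : Pq v.1.1 p1 p2) : bZ c (L2 F) v = p2 :=
  Int.cast_injective (α := ℂ) ((bZ_cast c _ _).trans (mk_l2 h))

theorem pq_bZ (v : LT F) : Pq v.1.1 (bZ c (L1 F) v) (bZ c (L2 F) v) := by
  obtain ⟨p1, p2, h⟩ := exists_pq v.2
  rwa [bZ_l1 c h, bZ_l2 c h]

/-- **The Mukai lattice** satisfies the axioms of the propagation. -/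
theorem lat : Ch.Lat (bZ c) (L1 F) (L2 F) :=
  haveI := LT_free c
  haveI := LT_fin c
  Ch.lat_of (bZ_eq c) (bL_symm c) (bL_even c) (bL_bij c) (bL_sig c)
    (bZ_l1 c (p2 := -1) ⟨_, rfl, rfl, rfl⟩) (bZ_l2 c (p1 := -1) ⟨_, rfl, rfl, rfl⟩)
    (bZ_l1 c (p2 := 2) ⟨_, rfl, rfl, rfl⟩)

theorem node_iff (v : LT F) : Node v.1 ↔ Ch.Node (bZ c) (L1 F) (L2 F) v := by
  have h1 : mk v.1 v.1 = 0 ↔ bZ c v v = 0 := by rw [← bZ_cast c, Int.cast_eq_zero]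
  have h2 : PrimA v.1.1 ↔ IsCoprime (bZ c (L1 F) v) (bZ c (L2 F) v) :=
    ⟨fun ⟨_, _, h, k⟩ => by rwa [bZ_l1 c h, bZ_l2 c h], fun k => ⟨_, _, pq_bZ c v, k⟩⟩
  have h3 : 7 ≤ Complex.normSq v.1.1 ↔
      14 ≤ Sw.ip3 (bZ c (L1 F) v) (bZ c (L2 F) v) (bZ c (L1 F) v) (bZ c (L2 F) v) := by
    rw [pq_normSq (pq_bZ c v), Sw.ip3, ← Int.cast_ofNat, Int.cast_le]
    exact ⟨fun k => by linarith, fun k => by linarith⟩
  have h4 : ∀ w : LT F, In1 v.1 w.1 ↔ ∃ r1 r2 j : ℤ, w = r1 • L1 F + r2 • L2 F + j • v := fun w =>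
    exists₃_congr fun _ _ _ => ⟨fun e => Subtype.ext e, congrArg Subtype.val⟩
  haveI := LT_fin c
  refine ⟨fun n => ⟨h1.1 n.iso, h2.1 n.prim, lat_dual_of_sat (lat c) (bZ_eq c) (bL_bij c)
    (h1.1 n.iso) (h2.1 n.prim) fun w k hk a => (h4 w).1 (n.sat _ w.2 k hk ((h4 (k • w)).2 a)),
    h3.1 n.big⟩, fun n => ⟨v.2, h1.2 n.iso, h2.2 n.cop, fun w hw k hk a => ?_, h3.2 n.big⟩⟩
  obtain ⟨f, h5, h6⟩ := n.sat
  obtain ⟨_, _, _, e⟩ := (h4 (k • ⟨w, hw⟩)).1 a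
  exact (h4 ⟨w, hw⟩).2 (lat_sat_of_dual (lat c) h5 h6 hk e)

theorem rho_eq (v : LT F) : (Ch.rho (bZ c) (L1 F) (L2 F) v).1 = (om * v.1.1, v.1.2) := by
  refine Prod.ext ?_ (by simp [Ch.rho, L1, L2, l1, l2])
  have h := pq_eq (pq_bZ c v)
  simp [Ch.rho, L1, L2, l1, l2, eis] at h ⊢
  linear_combination (1 - om) * h

end Vale.Agent.P287T.Cl
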