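import Vale.Agent.P287T.Cl.Kz
import Vale.Agent.P287Q.Hb.PBg
import Vale.Agent.P287Q.Hb.All
import Vale.Agent.P287Q.Hb.PN
import Vale.Agent.P287Q.Hb.L11
import Vale.Agent.P287Q.Int.All

/-!
# The Chern classes of a holomorphic bundle are integral of type `(k, k)`
-/

set_option linter.unusedSectionVars false
set_option linter.style.haveILetI false

namespace Vale.Agent.P287T.Cl

open Set Function Topology Filter Module P291Z P269 P269.Holo P269.Mono P269.Tq P269.Ch P269.Coh
  P269.Grr P287Q P287Q.Hb P287Q.Zc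

section abs

variable {S E : PS} {T : ℤ → ℤ → Submodule ℂ (H S.X)} {T' : ℤ → ℤ → Submodule ℂ (H E.X)}

/-- The integral classes of type `(k, k)`. -/
noncomputable def GZ {X : Type} [TopologicalSpace X] (T : ℤ → ℤ → Submodule ℂ (H X)) (k : ℕ) :
    AddSubgroup (H X) := (Lam X).toAddSubgroup ⊓ (T k k).toAddSubgroup

theorem gr_GZ (h : HG S T) : Gr (GZ T) :=
  ⟨⟨(Lam _).one_mem, h.one⟩, fun i j a ha b hb => ⟨(Lam _).mul_mem ha.1 hb.1, by
    have := h.mul _ _ _ _ a ha.2 b hb.2
    rwa [← Nat.cast_add] at this⟩⟩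

/-- The same for even classes. -/
noncomputable def GE {X : Type} [TopologicalSpace X] (T : ℤ → ℤ → Submodule ℂ (H X)) (k : ℕ) :
    AddSubgroup (Hev X) := (GZ T k).comap (Hev X).val.toRingHom.toAddMonoidHom

theorem mem_GE {X : Type} [TopologicalSpace X] {T : ℤ → ℤ → Submodule ℂ (H X)} {k : ℕ}
    {a : Hev X} : a ∈ GE T k ↔ a.1 ∈ Lam X ∧ a.1 ∈ T k k := Iff.rfl

theorem gr_GE (h : HG S T) : Gr (GE T) := (gr_GZ h).comap _

theorem KZ.typ {X : Type} [TopologicalSpace X] {T : ℤ → ℤ → Submodule ℂ (H X)}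
    {A : PowerSeries (Hev X)} (h : KZ (GE T) A) (k : ℕ) : (PowerSeries.coeff k A).1 ∈ T k k :=
  ((T k k).smul_mem_iff (Nat.cast_ne_zero.2 k.factorial_ne_zero)).1 (h.pw k).2

/-- The recursion of the Segre classes. -/
theorem segre {r : ℕ} {p : C(E.X, S.X)} {ξ : H E.X} (L : LHB S E r p ξ)
    {G : ℕ → AddSubgroup (H S.X)} (g : Gr G) (hs : ∀ k, PS.push p (ξ ^ (r + k)) ∈ G k)
    {c : ℕ → H S.X} (h1 : c (r + 1) = 1)
    (h0 : ∑ j ∈ Finset.range (r + 2), H.map p (c j) * ξ ^ j = 0) (k : ℕ) (hk : k ≤ r + 1) :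
    c (r + 1 - k) ∈ G k := by
  have d : ∀ m : ℕ, H.IsDeg (2 * m) (ξ ^ m) := fun m => by
    induction m with
    | zero => simpa using H.isDeg_one
    | succ m ih => rw [pow_succ, Nat.cast_succ, mul_add, mul_one]; exact ih.mul L.deg
  have z : ∀ m < r, PS.push p (ξ ^ m) = 0 := fun m hm =>
    (PS.push_deg p (d m)).eq_zero (by rw [L.dim]; omega)
  have o : PS.push p (ξ ^ r) = 1 := S.ext_right fun b => by rw [PS.J_mul_push, L.int, mul_one]
  induction k using Nat.strong_induction_on with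
  | _ k ih =>
    rcases k with _ | k
    · exact h1 ▸ g.one
    have e := congrArg (fun x => PS.push p (x * ξ ^ k)) h0
    simp only [Finset.sum_mul, map_sum, mul_assoc, ← pow_add, PS.mul_push, zero_mul, map_zero] at e
    rw [← Finset.add_sum_erase _ _ (Finset.mem_range.2 (show r - k < r + 2 by omega)),
      show r - k + k = r by omega, o, mul_one, add_eq_zero_iff_eq_neg] at e
    rw [show r + 1 - (k + 1) = r - k by omega, e]
    refine neg_mem (sum_mem fun j hj => ?_)
    have j1 := (Finset.mem_erase.1 hj).1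
    have j2 := Finset.mem_range.1 (Finset.mem_erase.1 hj).2
    by_cases j3 : j + k < r
    · rw [z _ j3, mul_zero]
      exact zero_mem _
    · have := ih (r + 1 - j) (by omega) (by omega)
      rw [show r + 1 - (r + 1 - j) = j by omega] at this
      exact g.mul' this (show r + (j + k - r) = j + k by omega ▸ hs (j + k - r)) (by omega)

end abs

variable {J R K L : Type} [Fintype J] [Fintype R] [Fintype K] [Fintype L] {π : J → R}
  {C : Set (J → ℂ)} {V : (J → ℂ) → Submodule ℂ (K → ℂ)} {r n : ℕ} [IsAct (scl π) univ]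
  [FP (scl π) C]

theorem lcq_11 (hC : PV π C n) (o : R) : lcq (scl π) C (fun t => t o) ∈ QT (scl π) C 1 1 := by
  classical
  exact (hC.gen o).lcq_mem hC.qm

variable (π C) in
/-- The variety as a presented space. -/
noncomputable def spY : Ch.Sp := sp (scl π) C

/-- The point of the cone. -/
def pt (t : (spY π C).T) : J → ℂ := Sp.val (act := scl π) (S := C) t

/-- The scaling factors. -/
def un (g : (spY π C).G) : R → ℂ := Units.val g

theorem pt_mem (t : (spY π C).T) : pt t ∈ C := Sp.val_mem (act := scl π) (S := C) t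

theorem pt_cont : Continuous (pt : (spY π C).T → J → ℂ) := Sp.continuous_val (act := scl π) (S := C)

theorem un_unit (g : (spY π C).G) : IsUnit (un g) := Units.isUnit g

theorem pt_smul (g : (spY π C).G) (t : (spY π C).T) : pt (g • t) = scl π (un g) (pt t) := rfl

/-- The subbundle of the trivial bundle. -/
noncomputable def sv (hV : SubB π C V r) : VB (sp (scl π) C) :=
  (trivB _ (K → ℂ)).sub (fun t => V (Sp.val (act := scl π) t)) (r + 1)
    (isClosed_of_closure_subset fun x a => @SubB.mem_of_tendsto _ _ _ _ _ _ _ _ _ _ _ hV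
      (Sp.val_mem (act := scl π) x.1) _ _ (mem_closure_iff_nhdsWithin_neBot.1 a) _ _ _
      (((Sp.continuous_val.comp continuous_fst).tendsto x).mono_left nhdsWithin_le_nhds)
      ((continuous_snd.tendsto x).mono_left nhdsWithin_le_nhds)
      (eventually_mem_nhdsWithin.mono fun z b => ⟨Sp.val_mem (act := scl π) z.1, b⟩))
    (fun t => hV.rank (Sp.val_mem (act := scl π) t))
    fun g t _ a => (hV.inv _ g.isUnit _ (Sp.val_mem (act := scl π) t)).ge a

theorem kz_sv (hC : PV π C n) (hV : SubB π C V r) : KZ (GE (QT (scl π) C)) (sv hV).chc := by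
  haveI := isAct_scl (blP K π)
  have hE := pb_pv hC hV
  haveI := hE.qm.fp
  have I : PbI V (sv hV) (.id ℂ _) := ⟨fun _ _ => rfl, hV.inv, fun _ _ a => a,
    fun _ _ _ _ a => a, fun _ w a => ⟨w, a, rfl⟩⟩
  have L := pb_lhb' hV hC.qm hE.qm (Nat.cast_add n r)
  have g := gr_GZ hC.hg
  refine (gr_GE hC.hg).chP (sv hV).chern_mon fun k hk => segre L g (fun k => ⟨?_, ?_⟩)
    (c := fun j => ((sv hV).chern.coeff j).1) (congrArg Subtype.val (sv hV).chern_mon.coeff) ?_ k hk
  · exact (pz_qm hE.qm).push (pz_qm hC.qm) _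
      ((Lam _).pow_mem (lcq_Lk hE.qm (hm_crd none)).1 _)
  · have := hC.hg.push hE.hg (fun p q c hc => pb_hol.map_QT hE.qm hC.qm hc)
      (hE.hg.pow (lcq_11 hE none) (r + k))
    rwa [show ((r + k : ℕ) : ℤ) + ((n : ℤ) - ((n + r : ℕ) : ℤ)) = k by push_cast; ring] at this
  · have e := congrArg (fun x => (Hev.map I.pm.map x).1) (sv hV).evP_chern
    rw [(sv hV).chern.as_sum_range' (r + 2) (Nat.lt_succ_of_le (sv hV).chern_mon.le)] at e
    simp only [map_sum, evP_monomial, map_mul, map_pow, map_zero, Hev.map_map] at e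
    rw [I.q_eq, I.xi_eq]
    refine Eq.trans ?_ e
    rw [AddSubmonoidClass.coe_finsetSum]
    rfl

/-- **A bundle that embeds holomorphically in a sum of copies of a line bundle.** -/
theorem kz_emb (hC : PV π C n) (hV : SubB π C V r) (E : VB (spY π C)) {c : (R → ℂ) → ℂ}
    (hc : Tq.Hm c) (h11 : lcq (scl π) C c ∈ QT (scl π) C 1 1)
    {A : (spY π C).T → E.W →ₗ[ℂ] K → ℂ}
    (cont : Continuous fun x : (spY π C).T × E.W => A x.1 x.2)
    (eqv : ∀ (g : (spY π C).G) t w, w ∈ E.F t → A (g • t) (g • w) = c (un g) • A t w)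
    (inj : ∀ t w, w ∈ E.F t → A t w = 0 → w = 0)
    (mem : ∀ t w, w ∈ E.F t → A t w ∈ V (pt t)) (hr : E.r = r + 1) :
    KZ (GE (QT (scl π) C)) E.chc := by
  have i : Iso (Mor.id (spY π C)) E (VB.tw (Y := spY π C) (sv hV) (Mor.id _) hc.ρ) A :=
    Iso.of_inj (Hom.of_continuous mem cont eqv) inj hr
  have e := (Iso.chc' i).trans (chc_tw (Y := spY π C) _ _ _)
  rw [pS_id] at e
  rw [e]
  refine (kz_sv hC hV).ex_mul (gr_GE hC.hg) ?_
  change (lce (scl π) C hc).1 ∈ GZ _ 1
  rw [lce_val]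
  exact ⟨(lcq_Lk hC.qm hc).1, h11⟩

omit [IsAct (scl π) univ] [FP (scl π) C] in
/-- The image of a holomorphic family of maps of constant rank. -/
theorem subB_range {B : (J → ℂ) → (L → ℂ) →ₗ[ℂ] K → ℂ}
    (an : ∀ y ∈ C, ∀ u, AnalyticAt ℂ (fun z => B z u) y)
    (inv : ∀ t, IsUnit t → ∀ y ∈ C, V (scl π t y) = V y)
    (hV : ∀ y ∈ C, V y = LinearMap.range (B y)) (hr : ∀ y ∈ C, finrank ℂ (V y) = r + 1) :
    SubB π C V r := by
  refine ⟨inv, fun y hy => ?_⟩
  let b := Module.finBasisOfFinrankEq ℂ (V y) (hr y hy)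
  choose u hu using fun i => (hV y hy).le (b i).2
  have a : AnalyticAt ℂ (fun z i => B z (u i)) y := analyticAt_pi_iff.2 fun i => an y hy _
  refine ⟨_, a, ?_⟩
  have l : LinearIndependent ℂ fun i => B y (u i) := by
    rw [show (fun i => B y (u i)) = (V y).subtype ∘ b from funext hu]
    exact b.linearIndependent.map' _ (V y).ker_subtype
  filter_upwards [nhdsWithin_le_nhds
    (a.continuousAt.eventually (isOpen_setOfPred_linearIndependent.mem_nhds l)), self_mem_nhdsWithin]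
    with z h1 h2
  refine ⟨h1, (Submodule.eq_of_le_of_finrank_eq (Submodule.span_le.2 ?_) ?_).symm⟩
  · rintro _ ⟨i, rfl⟩
    exact (hV z h2).ge ⟨_, rfl⟩
  · rw [finrank_span_eq_card h1, hr z h2, Fintype.card_fin]

/-- **A holomorphic subbundle of a sum of line bundles.** -/
theorem kz_sub (hC : PV π C n) (E : VB (spY π C)) (w : K → R → ℤ) (A : E.W →ₗ[ℂ] K → ℂ)
    (inj : Injective A)
    (eqv : ∀ (g : (spY π C).G) (v : E.W) i, A (g • v) i = (∏ o, un g o ^ w i o) * A v i)
    {B : (J → ℂ) → (L → ℂ) →ₗ[ℂ] K → ℂ} (an : ∀ y ∈ C, ∀ u, AnalyticAt ℂ (fun z => B z u) y)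
    (hF : ∀ t, (E.F t).map A = LinearMap.range (B (pt t))) :
    KZ (GE (QT (scl π) C)) E.chc := by
  classical
  rcases hr : E.r with _ | r
  · rw [chc_zero E hr]
    exact KZ.zero
  obtain ⟨N, hN⟩ := (finite_range fun q : K × R => w q.1 q.2).bddAbove
  obtain ⟨m, hm⟩ : ∃ m : (J → ℂ) → (K → ℂ) →ₗ[ℂ] (∀ o, {j // π j = o}) × K → ℂ, ∀ y v q,
      m y v q = (∏ o, y (q.1 o) ^ (N - w q.2 o).toNat) * v q.2 :=
    ⟨fun y => LinearMap.pi fun q => (∏ o, y (q.1 o) ^ (N - w q.2 o).toNat) • LinearMap.proj q.2,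
      fun _ _ _ => rfl⟩
  have mi : ∀ y ∈ C, ∀ v, m y v = 0 → v = 0 := fun y hy v e => funext fun i => by
    choose f h1 h2 using hC.sub hy
    exact (mul_eq_zero.1 ((hm _ _ _).symm.trans (congrFun e (fun o => ⟨f o, h1 o⟩, i)))).resolve_left
      (Finset.prod_ne_zero_iff.2 fun o _ => pow_ne_zero _ (h2 o))
  have ma : ∀ y (q : (∀ o, {j // π j = o}) × K),
      AnalyticAt ℂ (fun z : J → ℂ => ∏ o, z (q.1 o) ^ (N - w q.2 o).toNat) y := fun y q =>
    Finset.analyticAt_fun_prod _ fun o _ => (PV_an_crd _ y).pow _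
  have me : ∀ (g : (spY π C).G) (t : (spY π C).T) (v : E.W),
      m (pt (g • t)) (A (g • v)) = (∏ o, un g o ^ N) • m (pt t) (A v) := fun g t v =>
    funext fun q => by
      rw [Pi.smul_apply, hm, hm, eqv, smul_eq_mul, ← mul_assoc, ← mul_assoc,
        ← Finset.prod_mul_distrib, ← Finset.prod_mul_distrib]
      refine congrArg (· * _) (Finset.prod_congr rfl fun o _ => ?_)
      rw [pt_smul, P287Q.scl, (q.1 o).2, mul_pow, mul_right_comm, ← zpow_natCast,
        Int.toNat_of_nonneg (sub_nonneg.2 (hN ⟨(q.2, o), rfl⟩)),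
        ← zpow_add₀ (unit_iff.1 (un_unit g) o), sub_add_cancel]
  have hV : ∀ t, LinearMap.range (m (pt t) ∘ₗ B (pt t)) = (E.F t).map (m (pt t) ∘ₗ A) := fun t => by
    rw [LinearMap.range_comp, ← hF, Submodule.map_comp]
  have hi : ∀ (t : (spY π C).T) v, (m (pt t) ∘ₗ A) v = 0 → v = 0 := fun t v e =>
    inj ((mi _ (pt_mem t) _ e).trans (map_zero A).symm)
  have hk : ∀ y ∈ C, finrank ℂ (LinearMap.range (m y ∘ₗ B y)) = r + 1 := fun y hy =>
    (congrArg (fun S : Submodule ℂ _ => finrank ℂ S) (hV (Sp.of (scl π) y hy))).trans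
      ((finrank_map_of_inj fun v _ => hi _ v).trans ((E.rank _).trans hr))
  have hc := hm_chr fun _ : R => N
  refine kz_emb (V := fun y => LinearMap.range (m y ∘ₗ B y)) hC
    (subB_range (fun y hy u => analyticAt_pi_iff.2 fun q => ?_) (fun g hg y hy => ?_)
      (fun _ _ => rfl) hk) E hc ?_ (A := fun t => m (pt t) ∘ₗ A)
    (continuous_pi fun q => ?_) (fun g t v _ => me g t v) (fun t v _ => hi t v)
    (fun t v hv => (hV t).ge ⟨v, hv, rfl⟩) hr
  · simp only [LinearMap.comp_apply, hm]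
    exact (ma y q).mul (analyticAt_pi_iff.1 (an y hy u) q.2)
  · refine (Submodule.eq_of_le_of_finrank_eq (fun x hx => ?_)
      ((hk y hy).trans (hk _ (hC.inv g hg y hy)).symm)).symm
    let t : (spY π C).T := Sp.of (scl π) y hy
    let g' : (spY π C).G := hg.unit
    obtain ⟨v, hv, rfl⟩ := (hV t).le hx
    exact (Submodule.smul_mem_iff _ (hc.isUnit hg).ne_zero).1
      ((hV (g' • t)).ge ⟨_, E.inv g' _ v hv, me g' t v⟩)
  · rw [hC.lcq_zpow]
    exact sum_mem fun o _ => Submodule.smul_mem _ _ (lcq_11 hC o)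
  · simp only [LinearMap.comp_apply, hm]
    exact ((continuous_iff_continuousAt.2 fun y => (ma y q).continuousAt).comp
      (pt_cont.comp continuous_fst)).mul ((continuous_apply q.2).comp
        (A.continuous_of_finiteDimensional.comp continuous_snd))

end Vale.Agent.P287T.Cl
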