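import Vale.Agent.P287T.Cl.Mem0
import Vale.Agent.P287T.Cl.Seg
import Vale.Agent.P287T.Cl.St
import Vale.Agent.P287Q.Cub.Pv

/-!
# The class of a matrix factorization is integral and of Hodge type
-/

set_option linter.unusedSectionVars false
set_option linter.style.haveILetI false

namespace Vale.Agent.P287T.Cl

open Set Function Module Matrix PowerSeries P291Z P269 P269.Mono P269.Ch P269.Coh P269.Grr P287Q
  P287Q.Cub P287Q.Zc P287T.Rr P287T.Cy P287T.Top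

variable {ι : Type} [Fintype ι] [DecidableEq ι] {W : S6} (c : Cu W) {p : ι → ℤ} {d : Matrix ι ι S6}

theorem an_evM {κ : Type} [Fintype κ] (g : Matrix κ ι S6) (u : ι → ℂ) (y : Fin 6 → ℂ) :
    AnalyticAt ℂ (fun z => evM z g *ᵥ u) y :=
  analyticAt_pi_iff.2 fun i => Finset.analyticAt_fun_sum _ fun j _ =>
    (an_eval (g i j) y).mul analyticAt_const

/-- **The Chern classes of the kernel bundles are integral of type `(k, k)`.** -/
theorem kz_cV (hd : IsMF W p d) (a : ℤ) : KZ (GE (X := c.Y.X) (Per.TT W)) (cV c hd a) := by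
  haveI := isAct
  haveI := c.qm.fp
  let σ : Matrix ι ι ℂ := diagonal fun i => if 2 ∣ p i + (a + 1) then 1 else 0
  have hσ : ∀ v, σ *ᵥ v = par p (a + 1) v := fun v => funext fun i => by
    rw [mulVec_diagonal, par, ite_mul, one_mul, zero_mul]
  refine kz_sub (Cub.pv c.hom c.sm) (c.fam hd a).vb (fun i _ => wt (p i)) (.id) injective_id
    (fun g v i => ?_) (B := fun y => (evM y d).mulVecLin ∘ₗ σ.mulVecLin)
    (fun y _ u => an_evM d _ y) fun t => ?_
  · rw [Fintype.prod_unique]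
    exact congrFun (am_smul c.χ (fun i => wt (p i)) g v) i
  · have k := fib c.sm hd (c.x_mem t)
    refine (Submodule.map_id _).trans (Submodule.ext fun v => ⟨fun hv => ⟨hoM W d (c.x t) *ᵥ v, ?_⟩,
      fun ⟨u, hu⟩ => hu ▸ ?_⟩)
    · change evM (c.x t) d *ᵥ (σ *ᵥ _) = v
      rw [hσ, par_eq (fib_sup k (by omega) hv.1), fib_lift k hv.2.2]
    · change evM (c.x t) d *ᵥ (σ *ᵥ _) ∈ Vf _ _ _
      rw [hσ]
      exact ⟨evM_sup hd.deg _ (by omega) (par_sup _ u), one_mulVec _, by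
        rw [mulVec_mulVec, k.DD, zero_mulVec]⟩

theorem hpw (k : ℕ) : ((c.h ^ k).1 : H (XF W)) = hyp W ^ k := by
  rw [← c.h_val]
  rfl

theorem prim_val (x : Hev c.Y.X) : (c.prim x).1 = Top.pr W x.1 := by
  unfold Top.pr
  rw [← hpw c]
  rfl

theorem h_GE : c.h ∈ GE (Per.TT W) 1 := by
  change c.h.1 ∈ GZ (X := XF W) (Per.TT W) 1
  rw [c.h_val]
  exact ⟨c.per.cubH.int, c.per.cubH.h11⟩

theorem gr_TT : Gr (GE (X := c.Y.X) (Per.TT W)) := gr_GE (S := c.per.ps) c.per.cubH.hg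

theorem J_int {k : ℕ} {a : Hev c.Y.X} (ha : a ∈ GE (Per.TT W) k) : ∃ n : ℤ, c.J a.1 = n :=
  mem_ZZ.1 (c.per.cubH.pz.int _ ha.1)

/-- An integral class of degree two is an integral multiple of the hyperplane class. -/
theorem eq_zsmul {a : Hev c.Y.X} (ha : a ∈ GE (Per.TT W) 1) : ∃ k : ℤ, a = (k : ℂ) • c.h := by
  have h2 : H.IsDeg 2 (show H (XF W) from a.1) := c.per.cubH.hg.deg 1 1 _ ha.2
  obtain ⟨k, rfl⟩ : ∃ k : ℂ, a = k • c.h := by
    rcases amb_deg c.per.cubH.lf.deg (c.per.cubH.lf.amb 2 (by rw [c.per.cubH.n]; omega) _ h2) h2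
      with e | ⟨j, k, hj, e⟩
    · exact ⟨0, Subtype.ext (e.trans (zero_smul ℂ c.h.1).symm)⟩
    · obtain rfl : j = 1 := by omega
      exact ⟨k, Subtype.ext (e.trans (by rw [← hpw c, pow_one]; rfl))⟩
  obtain ⟨m, hm⟩ := J_int c ((gr_TT c).mul _ _ _ ha _ ((gr_TT c).pow (h_GE c) 3))
  obtain ⟨n, hn⟩ := J_int c ((gr_TT c).pow ha 4)
  rw [smul_mul_assoc, ← pow_succ', Subalgebra.coe_smul, map_smul, cu_h4, smul_eq_mul,
    mul_comm] at hm
  rw [smul_pow, Subalgebra.coe_smul, map_smul, cu_h4, smul_eq_mul, mul_comm] at hn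
  obtain ⟨j, rfl⟩ := int_of_pow hm hn
  exact ⟨j, rfl⟩

theorem sum_sgn (hd : IsMF W p d) : ∑ i, sgn (p i) • ex (vt (p i) • c.h) =
    cV c hd 0 - ex ((3 : ℤ) • c.h) * cV c hd 0 := by
  have h0 := cV_seq c hd (a := 0) (b := 1) (m := 3) (by omega) (if_pos (by omega)).symm
  have h1 := cV_seq c hd (a := 1) (b := 0) (m := 0) (by omega) (if_neg (by omega)).symm
  rw [zero_smul, ex_zero, one_mul] at h1
  rw [eq_sub_of_add_eq h0.symm, sub_sub, ← mul_add, ← eq_sub_of_add_eq h0.symm, ← h1,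
    Finset.mul_sum, Finset.sum_filter, Finset.sum_filter, ← Finset.sum_sub_distrib]
  refine Finset.sum_congr rfl fun i _ => ?_
  rw [sgn, vt]
  by_cases h : 2 ∣ p i
  · rw [if_pos h, if_pos h, if_pos (by omega), if_neg (by omega), one_smul, sub_zero]
  · rw [if_neg h, if_neg h, if_neg (by omega), if_pos (by omega), neg_one_smul, zero_sub, add_smul,
      ex_add]

theorem nE_typ (hd : IsMF W p d) : ((c.nE hd).1 : H (XF W)) ∈ Per.TT W 2 2 :=
  sub_mem ((kz_cV c hd 0).typ 2) (Submodule.smul_mem _ _ ((gr_TT c).pow (h_GE c) 2).2)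

/-- **The class of a matrix factorization is integral and of Hodge type.** -/
theorem stMem : StMem := fun {W} c ι _ _ p d hd => by
  refine ⟨?_, nE_typ c hd⟩
  have K := kz_cV c hd 0
  obtain ⟨k, hk⟩ := eq_zsmul c K.c1
  obtain ⟨x, hx, h2⟩ : ∃ x ∈ GE (X := c.Y.X) (Per.TT W) 2,
      coeff 2 (cV c hd 0) = (1 / 2 : ℂ) • coeff 1 (cV c hd 0) ^ 2 + x :=
    ⟨-((1 / 2 : ℂ) • coeff 1 (cV c hd 0) ^ 2 - coeff 2 (cV c hd 0)), neg_mem K.c2, by abel⟩
  obtain ⟨D, hD⟩ := J_int c ((gr_TT c).mul _ _ _ hx _ ((gr_TT c).pow (h_GE c) 2))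
  obtain ⟨u, u1, u2⟩ := chg_eis (c.J ∘ₗ (Hev c.Y.X).val.toLinearMap) (cu_h4 c) (r := c.rk p d 0)
    ((cV_rk c hd 0).trans (Int.cast_natCast _).symm) hk h2 hD (sum_sgn c hd)
  refine ⟨x.1, ⟨hx.1, c.per.cubH.hg.deg 2 2 _ hx.2⟩, u, ?_, Prod.ext ?_ ?_⟩
  · rw [u1, ← hD, ← hpw c]
    rfl
  · change zE p / _ = eis u
    rw [div_eq_iff c0_ne, mul_comm, ← u2]
    exact Finset.sum_congr rfl fun i _ => ζ_zpow _
  · change (c.prim (coeff 2 (cV c hd 0))).1 = Top.pr W x.1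
    rw [h2, prim_add, prim_span, zero_add]
    · exact prim_val c x
    · rw [hk, smul_pow]
      exact Submodule.smul_mem _ _ (Submodule.smul_mem _ _ (Submodule.mem_span_singleton_self _))

end Vale.Agent.P287T.Cl
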