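import Vale.Agent.P287T.Cl.Ad2
import Vale.Agent.P287T.Cl.Defs

/-!
# The charge modulo `(1 - ω)⁴`
-/

namespace Vale.Agent.P287T.Cl

open PowerSeries P269 P269.Ch P269.Grr P287T.Rr P287T.Top

theorem om_zpow3 (q : ℤ) : om ^ (3 * q) = 1 := by
  rw [zpow_mul, zpow_ofNat, om_cube, one_zpow]

theorem om_zpow (w : ℤ) : ∃ s t : ℤ, om ^ w = 1 + w * (om - 1) + 3 * om * (w ^ 2 - w) +
    (5 + om) * (w ^ 3 - 3 * w ^ 2 + 2 * w) + 9 * (s + t * om) := by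
  obtain ⟨q, h | h | h⟩ : ∃ q, w = 3 * q + 0 ∨ w = 3 * q + 1 ∨ w = 3 * q + 2 := ⟨w / 3, by omega⟩
  · refine ⟨-3 * q + 15 * q ^ 2 - 15 * q ^ 3, -3 * q ^ 3, ?_⟩
    rw [h, zpow_add₀ om_ne, om_zpow3, zpow_zero]
    push_cast
    ring
  · refine ⟨2 * q - 15 * q ^ 3, -q - 3 * q ^ 2 - 3 * q ^ 3, ?_⟩
    rw [h, zpow_add₀ om_ne, om_zpow3, zpow_one]
    push_cast
    ring
  · refine ⟨-3 * q - 15 * q ^ 2 - 15 * q ^ 3, -1 - 4 * q - 6 * q ^ 2 - 3 * q ^ 3, ?_⟩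
    rw [h, zpow_add₀ om_ne, om_zpow3, zpow_ofNat, om_sq]
    push_cast
    ring

/-- the sign of a generator -/
def sgn (a : ℤ) : ℤ := if 2 ∣ a then 1 else -1

/-- the exponent of a generator -/
def vt (a : ℤ) : ℤ := if 2 ∣ a then wt a else 3 + wt a

theorem ζ_zpow (a : ℤ) : ζ ^ a = sgn a * om ^ vt a := by
  rw [ζ_eq, sgn, vt]
  split_ifs with h
  · have := wt_even h
    rw [Even.neg_zpow (even_iff_two_dvd.2 h), show a = 3 * -wt a + wt a by omega,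
      zpow_add₀ om_ne, om_zpow3, show 3 * -wt a + wt a = a by omega, Int.cast_one]
  · have := wt_odd h
    rw [Odd.neg_zpow (Int.not_even_iff_odd.1 (mt even_iff_two_dvd.1 h)),
      show a = 3 * (-wt a - 2) + (3 + wt a) by omega, zpow_add₀ om_ne, om_zpow3,
      show 3 * (-wt a - 2) + (3 + wt a) = a by omega]
    simp

theorem int_of_pow {k : ℂ} {m n : ℤ} (h1 : 3 * k = m) (h4 : 3 * k ^ 4 = n) : ∃ j : ℤ, k = j := by
  have e : m ^ 4 = 3 * (9 * n) := by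
    have : (m : ℂ) ^ 4 = 3 * (9 * n) := by rw [← h1, ← h4]; ring
    exact_mod_cast this
  obtain ⟨j, rfl⟩ := Int.prime_three.dvd_of_dvd_pow ⟨_, e⟩
  exact ⟨j, mul_left_cancel₀ three_ne_zero (h1.trans (by push_cast; rfl))⟩

variable {R : Type*} [CommRing R] [Algebra ℂ R]

theorem ex_mul_three (x : R) (A : R⟦X⟧) : coeff 3 (ex x * A) = coeff 3 A + x * coeff 2 A +
    (2⁻¹ : ℂ) • x ^ 2 * coeff 1 A + (6⁻¹ : ℂ) • x ^ 3 * coeff 0 A := by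
  simp [coeff_mul, coeff_ex, Finset.Nat.antidiagonal_succ, add_assoc, Nat.factorial]

theorem ex_mul_zero (x : R) (A : R⟦X⟧) : coeff 0 (ex x * A) = coeff 0 A := by
  simp [coeff_mul, coeff_ex]

/-- **The charge modulo `(1 - ω)⁴`.** -/
theorem chg_eis (J : R →ₗ[ℂ] ℂ) {h x : R} (hJ : J (h ^ 4) = 3) {A : R⟦X⟧} {r k D : ℤ}
    (h0 : coeff 0 A = r) (h1 : coeff 1 A = (k : ℂ) • h)
    (h2 : coeff 2 A = (1 / 2 : ℂ) • coeff 1 A ^ 2 + x) (hD : J (x * h ^ 2) = D) {ι : Type}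
    [Fintype ι] {ε v : ι → ℤ} (e : ∑ i, ε i • ex (v i • h) = A - ex ((3 : ℤ) • h) * A) :
    ∃ u : Fin 3 → ℤ, u 0 + u 1 + u 2 = D ∧ ∑ i, ε i * om ^ v i = (1 - om) ^ 3 * eis u := by
  have k0 : ∀ j ≤ 4, J (coeff j (A - ex ((3 : ℤ) • h) * A) * h ^ (4 - j)) =
      3 * (j.factorial : ℂ)⁻¹ * ∑ i, (ε i : ℂ) * v i ^ j := fun j hj => by
    rw [← e, map_sum, Finset.sum_mul, map_sum, Finset.mul_sum]
    refine Finset.sum_congr rfl fun i _ => ?_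
    rw [map_zsmul, coeff_ex, ← Int.cast_smul_eq_zsmul ℂ, ← Int.cast_smul_eq_zsmul ℂ, smul_pow,
      smul_mul_assoc, smul_mul_assoc, smul_mul_assoc, ← pow_add, Nat.add_sub_cancel' hj, map_smul,
      map_smul, map_smul, hJ]
    simp only [smul_eq_mul]
    ring
  have j4 : ∀ a : ℂ, J (algebraMap ℂ R a * h ^ 4) = 3 * a := fun a => by
    rw [← Algebra.smul_def, map_smul, hJ, smul_eq_mul, mul_comm]
  have s0 := k0 0 (by omega)
  have s1 := k0 1 (by omega)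
  have s2 := k0 2 (by omega)
  have s3 := k0 3 (by omega)
  rw [map_sub, ex_mul_zero, sub_self, zero_mul, map_zero] at s0
  rw [map_sub, ex_mul_one, h0, show (coeff 1 A - (coeff 1 A + (3 : ℤ) • h * r)) * h ^ (4 - 1) =
    algebraMap ℂ R (-3 * r) * h ^ 4 by simp [zsmul_eq_mul, map_ofNat]; ring, j4] at s1
  rw [map_sub, ex_mul_two, h0, h1, show (coeff 2 A - (coeff 2 A + (3 : ℤ) • h * (k : ℂ) • h +
    (2⁻¹ : ℂ) • ((3 : ℤ) • h) ^ 2 * r)) * h ^ (4 - 2) =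
    algebraMap ℂ R (-3 * k - 2⁻¹ * 9 * r) * h ^ 4 by
      simp only [Algebra.smul_def, map_sub, map_mul, map_neg, map_ofNat, map_intCast]
      push_cast; ring, j4] at s2
  rw [map_sub, ex_mul_three, h0, h2, h1, show (coeff 3 A - (coeff 3 A + (3 : ℤ) • h *
    ((1 / 2 : ℂ) • ((k : ℂ) • h) ^ 2 + x) + (2⁻¹ : ℂ) • ((3 : ℤ) • h) ^ 2 * (k : ℂ) • h +
    (6⁻¹ : ℂ) • ((3 : ℤ) • h) ^ 3 * r)) * h ^ (4 - 3) =
    algebraMap ℂ R (-3 * (1 / 2) * k ^ 2 - 2⁻¹ * 9 * k - 6⁻¹ * 27 * r) * h ^ 4 -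
      (3 : ℂ) • (x * h ^ 2) by
      simp only [Algebra.smul_def, map_sub, map_mul, map_neg, map_ofNat, map_intCast,
        map_pow]
      push_cast; ring, map_sub, j4, map_smul, hD] at s3
  choose s t hst using om_zpow
  have z : ∑ i, ε i * om ^ v i = ∑ i, (ε i : ℂ) * v i ^ 0 + (∑ i, (ε i : ℂ) * v i ^ 1) * (om - 1) +
      3 * om * (∑ i, (ε i : ℂ) * v i ^ 2 - ∑ i, (ε i : ℂ) * v i ^ 1) +
      (5 + om) * (∑ i, (ε i : ℂ) * v i ^ 3 - 3 * ∑ i, (ε i : ℂ) * v i ^ 2 +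
        2 * ∑ i, (ε i : ℂ) * v i ^ 1) +
      9 * ((∑ i, ε i * s (v i) : ℤ) + (∑ i, ε i * t (v i) : ℤ) * om) := by
    push_cast
    simp only [Finset.mul_sum, Finset.sum_mul, ← Finset.sum_add_distrib, ← Finset.sum_sub_distrib]
    exact Finset.sum_congr rfl fun i _ => by rw [hst]; ring
  generalize ∑ i, ε i * s (v i) = σ at z
  generalize ∑ i, ε i * t (v i) = τ at z
  refine ⟨![D - (τ - k ^ 2 - 3 * k - 3 * r), σ - 5 * k ^ 2 - 5 * k - 3 * r - 3 * D,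
    (τ - k ^ 2 - 3 * k - 3 * r) - (σ - 5 * k ^ 2 - 5 * k - 3 * r - 3 * D)], by simp, ?_⟩
  simp only [Nat.factorial, smul_eq_mul] at s0 s1 s2 s3
  rw [z, c0_eq, eis]
  simp only [Matrix.cons_val_zero, Matrix.cons_val_one, Matrix.cons_val]
  push_cast at s0 s1 s2 s3 ⊢
  linear_combination (-1 / 3) * s0 - 3 * s1 + 10 * s2 - 2 * (5 + om) * s3 +
    (6 * ((τ - k ^ 2 - 3 * k - 3 * r) - (σ - 5 * k ^ 2 - 5 * k - 3 * r - 3 * D)) * om +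
      9 * (σ - 5 * k ^ 2 - 5 * k - 3 * r - 3 * D) - 3 * (τ - k ^ 2 - 3 * k - 3 * r)) * om_sq

end Vale.Agent.P287T.Cl
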