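import Vale.Agent.P287T.Cl.Seg

/-!
# Bundles that embed holomorphically in a sum of line bundles
-/

set_option linter.unusedSectionVars false
set_option linter.style.haveILetI false

namespace Vale.Agent.P287T.Cl

open Set Function Topology Filter Module P291Z P269 P269.Holo P269.Mono P269.Tq P269.Ch P269.Coh
  P269.Grr P287Q P287Q.Hb P287Q.Zc

variable {J R K L : Type} [Fintype J] [Fintype R] [Fintype K] [Fintype L] {π : J → R}
  {C : Set (J → ℂ)} {n : ℕ} [IsAct (scl π) univ] [FP (scl π) C]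

/-- **A bundle whose image in a sum of line bundles is holomorphic.** -/
theorem kz_var (hC : PV π C n) (E : VB (spY π C)) (w : K → R → ℤ)
    (A : (spY π C).T → E.W →ₗ[ℂ] K → ℂ) (cont : Continuous fun x : (spY π C).T × E.W => A x.1 x.2)
    (inj : ∀ t v, v ∈ E.F t → A t v = 0 → v = 0)
    (eqv : ∀ (g : (spY π C).G) t (v : E.W), v ∈ E.F t → ∀ i,
      A (g • t) (g • v) i = (∏ o, un g o ^ w i o) * A t v i)
    {B : (J → ℂ) → (L → ℂ) →ₗ[ℂ] K → ℂ} (an : ∀ y ∈ C, ∀ u, AnalyticAt ℂ (fun z => B z u) y)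
    (hF : ∀ t, (E.F t).map (A t) = LinearMap.range (B (pt t))) :
    KZ (GE (QT (scl π) C)) E.chc := by
  classical
  rcases hr : E.r with _ | r
  · rw [chc_zero E hr]
    exact KZ.zero
  obtain ⟨N, hN⟩ := (finite_range fun q : K × R => w q.1 q.2).bddAbove
  obtain ⟨m, hm⟩ : ∃ m : (J → ℂ) → (K → ℂ) →ₗ[ℂ] (∀ o, {j // π j = o}) × K → ℂ, ∀ y v q,
      m y v q = (∏ o, y (q.1 o) ^ (N - w q.2 o).toNat) * v q.2 :=
    ⟨fun y => LinearMap.pi fun q => (∏ o, y (q.1 o) ^ (N - w q.2 o).toNat) • LinearMap.proj q.2,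
      fun _ _ _ => rfl⟩
  have mi : ∀ y ∈ C, ∀ v, m y v = 0 → v = 0 := fun y hy v e => funext fun i => by
    choose f h1 h2 using hC.sub hy
    exact (mul_eq_zero.1 ((hm _ _ _).symm.trans (congrFun e (fun o => ⟨f o, h1 o⟩, i)))).resolve_left
      (Finset.prod_ne_zero_iff.2 fun o _ => pow_ne_zero _ (h2 o))
  have ma : ∀ y (q : (∀ o, {j // π j = o}) × K),
      AnalyticAt ℂ (fun z : J → ℂ => ∏ o, z (q.1 o) ^ (N - w q.2 o).toNat) y := fun y q =>
    Finset.analyticAt_fun_prod _ fun o _ => (PV_an_crd _ y).pow _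
  have me : ∀ (g : (spY π C).G) (t : (spY π C).T) (v : E.W), v ∈ E.F t →
      m (pt (g • t)) (A (g • t) (g • v)) = (∏ o, un g o ^ N) • m (pt t) (A t v) := fun g t v hv =>
    funext fun q => by
      rw [Pi.smul_apply, hm, hm, eqv g t v hv, smul_eq_mul, ← mul_assoc, ← mul_assoc,
        ← Finset.prod_mul_distrib, ← Finset.prod_mul_distrib]
      refine congrArg (· * _) (Finset.prod_congr rfl fun o _ => ?_)
      rw [pt_smul, P287Q.scl, (q.1 o).2, mul_pow, mul_right_comm, ← zpow_natCast,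
        Int.toNat_of_nonneg (sub_nonneg.2 (hN ⟨(q.2, o), rfl⟩)),
        ← zpow_add₀ (unit_iff.1 (un_unit g) o), sub_add_cancel]
  have hV : ∀ t, LinearMap.range (m (pt t) ∘ₗ B (pt t)) = (E.F t).map (m (pt t) ∘ₗ A t) :=
    fun t => by rw [LinearMap.range_comp, ← hF, Submodule.map_comp]
  have hi : ∀ (t : (spY π C).T) v, v ∈ E.F t → (m (pt t) ∘ₗ A t) v = 0 → v = 0 := fun t v hv e =>
    inj t v hv (mi _ (pt_mem t) _ e)
  have hk : ∀ y ∈ C, finrank ℂ (LinearMap.range (m y ∘ₗ B y)) = r + 1 := fun y hy =>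
    (congrArg (fun S : Submodule ℂ _ => finrank ℂ S) (hV (Sp.of (scl π) y hy))).trans
      ((finrank_map_of_inj (hi _)).trans ((E.rank _).trans hr))
  have hc := hm_chr fun _ : R => N
  refine kz_emb (V := fun y => LinearMap.range (m y ∘ₗ B y)) hC
    (subB_range (fun y hy u => analyticAt_pi_iff.2 fun q => ?_) (fun g hg y hy => ?_)
      (fun _ _ => rfl) hk) E hc ?_ (A := fun t => m (pt t) ∘ₗ A t)
    (continuous_pi fun q => ?_) me hi
    (fun t v hv => (hV t).ge ⟨v, hv, rfl⟩) hr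
  · simp only [LinearMap.comp_apply, hm]
    exact (ma y q).mul (analyticAt_pi_iff.1 (an y hy u) q.2)
  · refine (Submodule.eq_of_le_of_finrank_eq (fun x hx => ?_)
      ((hk y hy).trans (hk _ (hC.inv g hg y hy)).symm)).symm
    let t : (spY π C).T := Sp.of (scl π) y hy
    let g' : (spY π C).G := hg.unit
    obtain ⟨v, hv, rfl⟩ := (hV t).le hx
    exact (Submodule.smul_mem_iff _ (hc.isUnit hg).ne_zero).1
      ((hV (g' • t)).ge ⟨_, E.inv g' _ v hv, me g' t v hv⟩)
  · rw [hC.lcq_zpow]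
    exact sum_mem fun o _ => Submodule.smul_mem _ _ (lcq_11 hC o)
  · simp only [LinearMap.comp_apply, hm]
    exact ((continuous_iff_continuousAt.2 fun y => (ma y q).continuousAt).comp
      (pt_cont.comp continuous_fst)).mul ((continuous_apply q.2).comp cont)

end Vale.Agent.P287T.Cl
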